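import Vale.Agent.P126.Defs

/-!
Elementary facts about symmetric bodies, polars and covering numbers (P126).
-/

open scoped InnerProductSpace Pointwise
open Finset

namespace Vale.Agent.P126

variable {n : ℕ} {A B K L : Set (Space n)}

theorem IsSymmBody.exists_ball (hK : IsSymmBody K) :
    ∃ r : ℝ, 0 < r ∧ Metric.closedBall (0 : Space n) r ⊆ K := by
  obtain ⟨-, hconv, ⟨c, hc⟩, hsym⟩ := hK
  obtain ⟨r, hr, hball⟩ := Metric.nhds_basis_closedBall.mem_iff.1 (mem_interior_iff_mem_nhds.1 hc)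
  refine ⟨r, hr, fun v hv => ?_⟩
  have h1 : c + v ∈ K := hball (by simpa using hv)
  have h2 : c - v ∈ K := hball (by simpa using hv)
  have h3 := hconv h1 (hsym _ h2) (show (0 : ℝ) ≤ 1 / 2 by norm_num)
    (show (0 : ℝ) ≤ 1 / 2 by norm_num) (by norm_num)
  convert h3 using 1
  module

theorem IsSymmBody.zero_mem (hK : IsSymmBody K) : (0 : Space n) ∈ K := by
  obtain ⟨r, hr, h⟩ := hK.exists_ball
  exact h (by simp [hr.le])

/-- A compact convex set containing `0` is cut out by its supporting functionals. -/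
theorem mem_of_polar {W : Set (Space n)} (hWc : IsCompact W) (hWconv : Convex ℝ W)
    (h0 : (0 : Space n) ∈ W) {x : Space n}
    (h : ∀ y : Space n, (∀ w ∈ W, ⟪w, y⟫_ℝ ≤ 1) → ⟪x, y⟫_ℝ ≤ 1) : x ∈ W := by
  by_contra hx
  obtain ⟨f, u, hfu, hux⟩ := geometric_hahn_banach_closed_point hWconv hWc.isClosed hx
  have hu : 0 < u := by simpa using hfu 0 h0
  set z := (InnerProductSpace.toDual ℝ (Space n)).symm f
  have hz : ∀ v, ⟪v, u⁻¹ • z⟫_ℝ = u⁻¹ * f v := fun v => by
    rw [real_inner_smul_right, real_inner_comm]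
    simp [z]
  have h2 := h (u⁻¹ • z) fun w hw => by
    rw [hz, inv_mul_le_iff₀ hu, mul_one]
    exact (hfu w hw).le
  rw [hz, inv_mul_le_iff₀ hu, mul_one] at h2
  linarith

theorem isClosed_polarBody (K : Set (Space n)) : IsClosed (polarBody K) := by
  simp only [polarBody, Set.ofPred_forall]
  exact isClosed_biInter fun x _ => isClosed_le (by fun_prop) continuous_const

theorem convex_polarBody (K : Set (Space n)) : Convex ℝ (polarBody K) := by
  intro y hy z hz a b ha hb hab x hx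
  have h1 := mul_le_mul_of_nonneg_left (hy x hx) ha
  have h2 := mul_le_mul_of_nonneg_left (hz x hx) hb
  rw [inner_add_right, real_inner_smul_right, real_inner_smul_right]
  linarith

theorem zero_mem_polarBody (K : Set (Space n)) : (0 : Space n) ∈ polarBody K :=
  fun x _ => by simp

theorem IsSymmBody.polar (hK : IsSymmBody K) : IsSymmBody (polarBody K) := by
  obtain ⟨r, hr, hball⟩ := hK.exists_ball
  refine ⟨?_, convex_polarBody K, ?_, fun y hy x hx => ?_⟩
  · refine Metric.isCompact_of_isClosed_isBounded (isClosed_polarBody K)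
      ((Metric.isBounded_closedBall (x := (0 : Space n)) (r := 1 / r)).subset fun y hy => ?_)
    rw [mem_closedBall_zero_iff]
    rcases eq_or_ne y 0 with rfl | hy0
    · simp [hr.le]
    have hn : 0 < ‖y‖ := norm_pos_iff.2 hy0
    have h1 := hy ((r / ‖y‖) • y) (hball (by
      rw [mem_closedBall_zero_iff, norm_smul, Real.norm_of_nonneg (by positivity),
        div_mul_cancel₀ _ hn.ne']))
    rw [real_inner_smul_left, real_inner_self_eq_norm_sq] at h1
    rw [le_div_iff₀ hr]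
    field_simp at h1
    linarith
  · obtain ⟨M, hM, hKM⟩ := hK.1.isBounded.exists_pos_norm_le
    refine ⟨0, mem_interior_iff_mem_nhds.2 (Filter.mem_of_superset
      (Metric.closedBall_mem_nhds (0 : Space n) (inv_pos.2 hM)) fun y hy x hx => ?_)⟩
    rw [mem_closedBall_zero_iff] at hy
    calc ⟪x, y⟫_ℝ ≤ ‖x‖ * ‖y‖ := real_inner_le_norm x y
      _ ≤ M * M⁻¹ := by gcongr; exact hKM x hx
      _ = 1 := mul_inv_cancel₀ hM.ne'
  · have := hy (-x) (hK.2.2.2 x hx)
    simpa using this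

theorem IsSymmBody.bipolar (hK : IsSymmBody K) : polarBody (polarBody K) = K := by
  refine Set.Subset.antisymm (fun x hx => ?_) fun x hx y hy => ?_
  · refine mem_of_polar hK.1 hK.2.1 hK.zero_mem fun y hy => ?_
    rw [real_inner_comm]
    exact hx y hy
  · rw [real_inner_comm]
    exact hy x hx

theorem IsSymmBody.smul (hK : IsSymmBody K) {t : ℝ} (ht : t ≠ 0) : IsSymmBody (t • K) := by
  refine ⟨hK.1.smul t, hK.2.1.smul t, ?_, ?_⟩
  · rw [interior_smul₀ ht]
    exact hK.2.2.1.smul_set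
  · rintro _ ⟨x, hx, rfl⟩
    exact ⟨-x, hK.2.2.2 x hx, smul_neg t x⟩

theorem polarBody_smul {t : ℝ} (ht : t ≠ 0) (K : Set (Space n)) :
    polarBody (t • K) = t⁻¹ • polarBody K := by
  ext y
  constructor
  · intro h
    refine ⟨t • y, fun x hx => ?_, inv_smul_smul₀ ht y⟩
    rw [real_inner_smul_right, ← real_inner_smul_left]
    exact h _ (Set.smul_mem_smul_set hx)
  · rintro ⟨z, hz, rfl⟩ _ ⟨x, hx, rfl⟩
    rw [real_inner_smul_left, real_inner_smul_right, ← mul_assoc, mul_inv_cancel₀ ht, one_mul]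
    exact hz x hx

/-- Symmetric bodies have finite covers, so the covering number is attained. -/
theorem exists_cover (hA : IsCompact A) (hB : IsSymmBody B) :
    ∃ C : Finset (Space n), C.card ≤ coveringNum A B ∧ A ⊆ ⋃ c ∈ C, c +ᵥ B := by
  classical
  refine Nat.sInf_mem (s := {k | ∃ C : Finset (Space n), C.card ≤ k ∧ A ⊆ ⋃ c ∈ C, c +ᵥ B}) ?_
  obtain ⟨r, hr, hball⟩ := hB.exists_ball
  obtain ⟨T, -, hTfin, hT⟩ := finite_cover_balls_of_compact hA hr
  refine ⟨_, hTfin.toFinset, le_rfl, hT.trans fun v hv => ?_⟩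
  simp only [Set.mem_iUnion] at hv ⊢
  obtain ⟨c, hc, hv⟩ := hv
  refine ⟨c, hTfin.mem_toFinset.2 hc, v - c, hball ?_, by simp⟩
  rw [mem_closedBall_zero_iff, ← dist_eq_norm]
  exact (Metric.mem_ball.1 hv).le

theorem coveringNum_le {C : Finset (Space n)} (h : A ⊆ ⋃ c ∈ C, c +ᵥ B) :
    coveringNum A B ≤ C.card :=
  Nat.sInf_le ⟨C, le_rfl, h⟩

theorem coveringNum_smul {t : ℝ} (ht : t ≠ 0) (A B : Set (Space n)) :
    coveringNum (t • A) (t • B) = coveringNum A B := by
  classical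
  unfold coveringNum
  congr 1
  ext k
  constructor
  · rintro ⟨C, hC, h⟩
    refine ⟨C.image fun c => t⁻¹ • c, card_image_le.trans hC, fun x hx => ?_⟩
    have := h (Set.smul_mem_smul_set hx)
    simp only [Set.mem_iUnion] at this ⊢
    obtain ⟨c, hc, b, ⟨b', hb', rfl⟩, hb⟩ := this
    refine ⟨t⁻¹ • c, mem_image_of_mem _ hc, b', hb', ?_⟩
    simp only [vadd_eq_add] at hb ⊢
    rw [← inv_smul_smul₀ ht x, ← hb, smul_add, inv_smul_smul₀ ht]
  · rintro ⟨C, hC, h⟩
    refine ⟨C.image fun c => t • c, card_image_le.trans hC, ?_⟩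
    rintro _ ⟨x, hx, rfl⟩
    have := h hx
    simp only [Set.mem_iUnion] at this ⊢
    obtain ⟨c, hc, b, hb, rfl⟩ := this
    exact ⟨t • c, mem_image_of_mem _ hc, t • b, Set.smul_mem_smul_set hb, by simp [smul_add]⟩

/-- A separated subset of the polar is no larger than any cover of the polar. -/
theorem card_separated_le (hK : IsSymmBody K) (hL : IsSymmBody L) {a : ℝ} (ha : 0 < a)
    (G : Finset (Space n)) (hG : ∀ g ∈ G, g ∈ polarBody L)
    (hsep : ∀ g ∈ G, ∀ h ∈ G, g ≠ h → ∃ x ∈ K, 2 / a < |⟪x, g - h⟫_ℝ|) :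
    G.card ≤ coveringNum (polarBody L) (a⁻¹ • polarBody K) := by
  classical
  obtain ⟨C, hC, hcov⟩ := exists_cover hL.polar.1 (hK.polar.smul (inv_ne_zero ha.ne'))
  refine le_trans ?_ hC
  have hcell : ∀ g ∈ G, ∃ c ∈ C, ∀ x ∈ K, |⟪x, g - c⟫_ℝ| ≤ 1 / a := by
    intro g hg
    have := hcov (hG g hg)
    simp only [Set.mem_iUnion] at this
    obtain ⟨c, hc, b, ⟨b', hb', rfl⟩, rfl⟩ := this
    refine ⟨c, hc, fun x hx => ?_⟩
    have h1 := hb' x hx
    have h2 := hb' (-x) (hK.2.2.2 x hx)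
    rw [inner_neg_left] at h2
    simp only [vadd_eq_add, add_sub_cancel_left, real_inner_smul_right, abs_mul, abs_inv,
      abs_of_pos ha, one_div]
    exact mul_le_of_le_one_right (inv_nonneg.2 ha.le) (abs_le.2 ⟨by linarith, h1⟩)
  choose! f hfC hf using hcell
  refine card_le_card_of_injOn f hfC fun g hg h hh e => ?_
  by_contra hne
  obtain ⟨x, hx, hlt⟩ := hsep g hg h hh hne
  have e1 : ⟪x, g - h⟫_ℝ = ⟪x, g - f g⟫_ℝ - ⟪x, h - f h⟫_ℝ := by
    rw [← inner_sub_right, e]
    congr 1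
    abel
  rw [e1] at hlt
  have h4 := abs_sub (⟪x, g - f g⟫_ℝ) (⟪x, h - f h⟫_ℝ)
  have h2a : 2 / a = 1 / a + 1 / a := by ring
  linarith [hf g hg x hx, hf h hh x hx]

end Vale.Agent.P126
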