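import Mathlib

/-!
Definitions for the duality problem of metric entropy (P126): origin-symmetric convex bodies,
polars, covering numbers.
-/

open scoped InnerProductSpace Pointwise

namespace Vale.Agent.P126

/-- Euclidean space `ℝⁿ`. -/
abbrev Space (n : ℕ) : Type := EuclideanSpace ℝ (Fin n)

/-- An origin-symmetric convex body: compact, convex, with nonempty interior, and `K = -K`. -/
def IsSymmBody {n : ℕ} (K : Set (Space n)) : Prop :=
  IsCompact K ∧ Convex ℝ K ∧ (interior K).Nonempty ∧ ∀ x ∈ K, -x ∈ K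

/-- The polar body `{y | ⟪x, y⟫ ≤ 1 for all x ∈ K}`. -/
def polarBody {n : ℕ} (K : Set (Space n)) : Set (Space n) :=
  {y | ∀ x ∈ K, ⟪x, y⟫_ℝ ≤ 1}

/-- `N(A, B)`: the least number of translates of `B` (by arbitrary vectors) covering `A`. -/
noncomputable def coveringNum {n : ℕ} (A B : Set (Space n)) : ℕ :=
  sInf {k | ∃ C : Finset (Space n), C.card ≤ k ∧ A ⊆ ⋃ c ∈ C, c +ᵥ B}

end Vale.Agent.P126
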