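import Vale.Agent.P126.Piece

/-!
Duality of metric entropy with a trade-off between scale and factor (P126): the nets of the
pieces at scales `(32 ρ) ^ j / 2` multiply into one separated subset of the polar, and the
one-scale covers add up to a cover of `K` by translates of `L`.
-/

open scoped InnerProductSpace Pointwise
open Finset

namespace Vale.Agent.P126

variable {n : ℕ} {K L : Set (Space n)} {ρ : ℝ}

/-- The scales. -/
noncomputable def scale (ρ : ℝ) (j : ℕ) : ℝ := (32 * ρ) ^ j / 2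

theorem half_le_scale (hρ : 1 ≤ ρ) (j : ℕ) : 1 / 2 ≤ scale ρ j := by
  have : (1 : ℝ) ≤ (32 * ρ) ^ j := one_le_pow₀ (by linarith)
  rw [scale]
  linarith

/-- Nets of pieces at scales in ratio `(32 ρ) ^ 2` combine into a separated set of the polar. -/
theorem prod_card_le (hK : IsSymmBody K) (hL : IsSymmBody L) (hρ : 1 ≤ ρ) (t₀ : ℝ)
    (ht : 1 / 2 ≤ t₀) (F : ℕ → Finset (Space n))
    (hF : ∀ i, ∀ c ∈ F i, c ∈ piece K L (t₀ * (1024 * ρ ^ 2) ^ i) (64 * ρ))
    (hsep : ∀ i, ∀ c ∈ F i, ∀ d ∈ F i, c ≠ d →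
      ∃ x ∈ K, t₀ * (1024 * ρ ^ 2) ^ i / ρ < |⟪x, c - d⟫_ℝ|)
    (I : ℕ) :
    ∏ i ∈ range I, (F i).card ≤ coveringNum (polarBody L) ((16 * ρ)⁻¹ • polarBody K) := by
  classical
  have hρ0 : 0 < ρ := by linarith
  suffices H : ∃ G : Finset (Space n), G.card = ∏ i ∈ range I, (F i).card ∧
      (∀ g ∈ G, ∀ x ∈ L, ⟪x, g⟫_ℝ ≤ 1 - (1 / 2) ^ I) ∧
      (∀ g ∈ G, ∀ h ∈ G, ∀ x ∈ K,
        |⟪x, g - h⟫_ℝ| ≤ 1 / (2 * ρ) * (t₀ / 2 * (512 * ρ ^ 2) ^ I)) ∧
      (∀ g ∈ G, ∀ h ∈ G, g ≠ h → ∃ x ∈ K, t₀ / (4 * ρ) < |⟪x, g - h⟫_ℝ|) by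
    obtain ⟨G, hG, hGL, -, hGs⟩ := H
    rw [← hG]
    refine card_separated_le hK hL (by positivity) G (fun g hg x hx => ?_) fun g hg h hh hne => ?_
    · have := hGL g hg x hx
      have : (0 : ℝ) ≤ (1 / 2) ^ I := by positivity
      linarith
    · obtain ⟨x, hx, h2⟩ := hGs g hg h hh hne
      refine ⟨x, hx, lt_of_le_of_lt ?_ h2⟩
      rw [show (2 : ℝ) / (16 * ρ) = (1 / 2) / (4 * ρ) by ring]
      exact div_le_div_of_nonneg_right ht (by positivity)
  induction I with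
  | zero =>
    refine ⟨{0}, by simp, fun g hg x _ => ?_, fun g hg h hh x _ => ?_, fun g hg h hh hne => ?_⟩
    · simp [mem_singleton.1 hg]
    · simp only [mem_singleton.1 hg, mem_singleton.1 hh, sub_self, inner_zero_right, abs_zero]
      positivity
    · exact absurd ((mem_singleton.1 hg).trans (mem_singleton.1 hh).symm) hne
  | succ I ih =>
    obtain ⟨G, hG, hGL, hGd, hGs⟩ := ih
    set w : ℝ := (1 / 2) ^ (I + 1) with hw
    have hw0 : 0 < w := by positivity
    set U : ℝ := t₀ / 2 * (512 * ρ ^ 2) ^ I with hU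
    have hwt : w * (t₀ * (1024 * ρ ^ 2) ^ I) = U := by
      rw [hw, hU, pow_succ, show (1024 : ℝ) * ρ ^ 2 = 2 * (512 * ρ ^ 2) by ring, mul_pow]
      have : (1 / 2 : ℝ) ^ I * 2 ^ I = 1 := by rw [← mul_pow]; norm_num
      linear_combination (1 / 2 * t₀ * (512 * ρ ^ 2) ^ I) * this
    let φ : Space n × Space n → Space n := fun gc => gc.1 + w • gc.2
    have hU0 : t₀ / 2 ≤ U := by
      refine le_mul_of_one_le_right (by linarith) (one_le_pow₀ ?_)
      linarith [one_le_pow₀ hρ (n := 2)]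
    have hgap : t₀ / (4 * ρ) ≤ U / ρ - 1 / (2 * ρ) * U := by
      rw [show U / ρ - 1 / (2 * ρ) * U = U / (2 * ρ) by field_simp; ring,
        show t₀ / (4 * ρ) = t₀ / 2 / (2 * ρ) by ring]
      exact div_le_div_of_nonneg_right hU0 (by positivity)
    have key : ∀ p ∈ G ×ˢ F I, ∀ q ∈ G ×ˢ F I, p ≠ q →
        ∃ x ∈ K, t₀ / (4 * ρ) < |⟪x, φ p - φ q⟫_ℝ| := by
      rintro ⟨g, c⟩ hp ⟨h, d⟩ hq hne
      obtain ⟨hg, hc⟩ := mem_product.1 hp
      obtain ⟨hh, hd⟩ := mem_product.1 hq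
      have hexp : ∀ x : Space n, ⟪x, φ (g, c) - φ (h, d)⟫_ℝ =
          ⟪x, g - h⟫_ℝ + w * ⟪x, c - d⟫_ℝ := fun x => by
        simp only [φ, inner_sub_right, inner_add_right, real_inner_smul_right]
        ring
      by_cases hcd : c = d
      · subst hcd
        obtain ⟨x, hx, h2⟩ := hGs g hg h hh fun e => hne (by rw [e])
        refine ⟨x, hx, ?_⟩
        rwa [hexp, sub_self, inner_zero_right, mul_zero, add_zero]
      · obtain ⟨x, hx, h2⟩ := hsep I c hc d hd hcd
        refine ⟨x, hx, ?_⟩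
        rw [hexp]
        have h3 := hGd g hg h hh x hx
        have h4 : U / ρ < |w * ⟪x, c - d⟫_ℝ| := by
          rw [abs_mul, abs_of_pos hw0, ← hwt, mul_div_assoc]
          exact mul_lt_mul_of_pos_left h2 hw0
        have h5 := abs_sub_abs_le_abs_sub (w * ⟪x, c - d⟫_ℝ) (-⟪x, g - h⟫_ℝ)
        rw [abs_neg, sub_neg_eq_add, add_comm] at h5
        linarith
    have hinj : Set.InjOn φ (G ×ˢ F I : Finset (Space n × Space n)) := by
      intro p hp q hq e
      by_contra hne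
      obtain ⟨x, -, h⟩ := key p hp q hq hne
      rw [e, sub_self, inner_zero_right, abs_zero] at h
      linarith [show 0 ≤ t₀ / (4 * ρ) from div_nonneg (by linarith) (by linarith)]
    refine ⟨(G ×ˢ F I).image φ, ?_, ?_, ?_, ?_⟩
    · rw [card_image_of_injOn hinj, card_product, hG, prod_range_succ]
    · intro g' hg' x hx
      obtain ⟨⟨g, c⟩, hp, rfl⟩ := mem_image.1 hg'
      obtain ⟨hg, hc⟩ := mem_product.1 hp
      have h1 := hGL g hg x hx
      have h2 := mul_le_mul_of_nonneg_left ((hF I c hc).1 x hx) hw0.le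
      have e : (1 / 2 : ℝ) ^ I = 2 * w := by rw [hw, pow_succ]; ring
      simp only [φ, inner_add_right, real_inner_smul_right]
      linarith
    · intro g' hg' h' hh' x hx
      obtain ⟨⟨g, c⟩, hp, rfl⟩ := mem_image.1 hg'
      obtain ⟨⟨h, d⟩, hq, rfl⟩ := mem_image.1 hh'
      obtain ⟨hg, hc⟩ := mem_product.1 hp
      obtain ⟨hh, hd⟩ := mem_product.1 hq
      have h1 := hGd g hg h hh x hx
      have h2 := (hF I c hc).2 x hx
      have h3 := (hF I d hd).2 x hx
      have h4 : |w * ⟪x, c - d⟫_ℝ| ≤ 128 * ρ * U := by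
        rw [abs_mul, abs_of_pos hw0, ← hwt, inner_sub_right]
        have := abs_sub (⟪x, c⟫_ℝ) (⟪x, d⟫_ℝ)
        calc w * |⟪x, c⟫_ℝ - ⟪x, d⟫_ℝ| ≤ w * (128 * ρ * (t₀ * (1024 * ρ ^ 2) ^ I)) :=
              mul_le_mul_of_nonneg_left (by linarith) hw0.le
          _ = _ := by ring
      have e : ⟪x, φ (g, c) - φ (h, d)⟫_ℝ = ⟪x, g - h⟫_ℝ + w * ⟪x, c - d⟫_ℝ := by
        simp only [φ, inner_sub_right, inner_add_right, real_inner_smul_right]
        ring
      have e2 : 1 / (2 * ρ) * (t₀ / 2 * (512 * ρ ^ 2) ^ (I + 1)) = 256 * ρ * U := by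
        rw [hU, pow_succ]; field_simp; ring
      have e3 : 1 / (2 * ρ) * U ≤ 128 * ρ * U := by
        refine mul_le_mul_of_nonneg_right ?_ (by linarith)
        rw [div_le_iff₀ (by positivity)]
        linarith [one_le_pow₀ hρ (n := 2)]
      rw [e, e2]
      refine (abs_add_le _ _).trans ?_
      linarith
    · intro g' hg' h' hh' hne
      obtain ⟨p, hp, rfl⟩ := mem_image.1 hg'
      obtain ⟨q, hq, rfl⟩ := mem_image.1 hh'
      exact key p hp q hq fun e => hne (by rw [e])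

theorem sum_range_two_mul (a : ℕ → ℝ) (I : ℕ) :
    ∑ j ∈ range (2 * I), a j = ∑ r ∈ range 2, ∑ i ∈ range I, a (2 * i + r) := by
  induction I with
  | zero => simp
  | succ I ih =>
    rw [show 2 * (I + 1) = 2 * I + 2 by ring, sum_range_add, ih, ← sum_add_distrib]
    exact sum_congr rfl fun r _ => (sum_range_succ (fun i => a (2 * i + r)) I).symm

/-- The cover from the scales below `m`. -/
theorem exists_multiscale_cover (hL : IsSymmBody L) (hρ : 1 ≤ ρ)
    (C : ℕ → Finset (Space n)) (hCpos : ∀ j, 0 < (C j).card)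
    (hC : ∀ j, ∀ x ∈ K, ∃ z ∈ C j, x - z ∈ scale ρ j • L + (64 * ρ)⁻¹ • K) (m : ℕ) :
    ∃ D : Finset (Space n), 0 < D.card ∧
      Real.log D.card ≤ ∑ j ∈ range m, Real.log (C j).card ∧
      ∀ x ∈ K, ∃ z ∈ D, x - z ∈ (1 - (1 / 2 : ℝ) ^ m) • L + ((64 * ρ)⁻¹) ^ m • K := by
  classical
  induction m with
  | zero =>
    refine ⟨{0}, by simp, by simp, fun x hx => ⟨0, mem_singleton_self 0, ?_⟩⟩
    simp only [pow_zero, sub_self, sub_zero, one_smul]
    exact ⟨0, ⟨0, hL.zero_mem, zero_smul ℝ 0⟩, x, hx, zero_add x⟩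
  | succ m ih =>
    obtain ⟨D, hD, hlog, hcov⟩ := ih
    set D' := (D ×ˢ C m).image fun p => p.1 + ((64 * ρ)⁻¹) ^ m • p.2 with hD'
    have hne : D'.Nonempty := ((card_pos.1 hD).product (card_pos.1 (hCpos m))).image _
    refine ⟨D', hne.card_pos, ?_, fun x hx => ?_⟩
    · rw [sum_range_succ]
      calc Real.log (D'.card : ℝ) ≤ Real.log ((D.card : ℝ) * (C m).card) := by
            refine Real.log_le_log (by exact_mod_cast hne.card_pos) ?_
            exact_mod_cast card_image_le.trans (card_product D (C m)).le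
        _ = Real.log D.card + Real.log (C m).card :=
            Real.log_mul (by exact_mod_cast hD.ne') (by exact_mod_cast (hCpos m).ne')
        _ ≤ _ := by linarith
    · obtain ⟨z, hz, _, ⟨l, hl, rfl⟩, _, ⟨k, hk, rfl⟩, hxe⟩ := hcov x hx
      obtain ⟨z', hz', _, ⟨l', hl', rfl⟩, _, ⟨k', hk', rfl⟩, hke⟩ := hC m k hk
      refine ⟨z + ((64 * ρ)⁻¹) ^ m • z',
        mem_image.2 ⟨(z, z'), mem_product.2 ⟨hz, hz'⟩, rfl⟩, ?_⟩
      have ha : (0 : ℝ) ≤ 1 - (1 / 2) ^ m := by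
        have : (1 / 2 : ℝ) ^ m ≤ 1 := pow_le_one₀ (by norm_num) (by norm_num)
        linarith
      have hl2 : (1 - (1 / 2 : ℝ) ^ m) • l + (1 / 2 : ℝ) ^ (m + 1) • l' ∈
          (1 - (1 / 2 : ℝ) ^ (m + 1)) • L := by
        rw [show (1 : ℝ) - (1 / 2) ^ (m + 1) = (1 - (1 / 2) ^ m) + (1 / 2) ^ (m + 1) by ring,
          hL.2.1.add_smul ha (by positivity)]
        exact Set.add_mem_add (Set.smul_mem_smul_set hl) (Set.smul_mem_smul_set hl')
      refine ⟨_, hl2, _, Set.smul_mem_smul_set (a := ((64 * ρ)⁻¹) ^ (m + 1)) hk', ?_⟩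
      have e1 : (64 * ρ)⁻¹ ^ m * scale ρ m = (1 / 2) ^ (m + 1) := by
        have hρ0 : ρ ≠ 0 := by linarith
        rw [scale, mul_div_assoc', ← mul_pow,
          show (64 * ρ)⁻¹ * (32 * ρ) = 1 / 2 by field_simp; norm_num, pow_succ]
        ring
      simp only at hxe hke ⊢
      have hk2 : k = z' + (scale ρ m • l' + ((64 * ρ)⁻¹) • k') := by rw [hke]; abel
      have hx2 : x = z + ((1 - (1 / 2 : ℝ) ^ m) • l + ((64 * ρ)⁻¹) ^ m • k) := by rw [hxe]; abel
      rw [hx2, hk2, pow_succ ((64 * ρ)⁻¹) m, mul_smul, ← e1, mul_smul, smul_add, smul_add]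
      abel

/-- Duality of metric entropy at scale `16 ρ`, with `k` stages of tilting. -/
theorem log_coveringNum_le (hK : IsSymmBody K) (hL : IsSymmBody L) (hρ : 48 ≤ ρ) {k : ℕ}
    (hk : 1 ≤ k) :
    Real.log (coveringNum K L) ≤
      2 * (k + 1 : ℝ) * Real.log (coveringNum (polarBody L) ((16 * ρ)⁻¹ • polarBody K)) +
      43120 * (64 * ρ) ^ 3 * ρ * (16 * k / ρ) ^ k *
        Real.log (coveringNum (polarBody L) ((16 * ρ)⁻¹ • polarBody K)) ^ 2 := by
  classical
  have hρ1 : 1 ≤ ρ := by linarith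
  have hρ0 : 0 < ρ := by linarith
  set N := coveringNum (polarBody L) ((16 * ρ)⁻¹ • polarBody K) with hN
  have hnets := fun j => exists_piece_net hK hL (half_le_scale hρ1 j)
    (show 0 ≤ 64 * ρ by linarith) hρ0
  choose F hFne hFmem hFsep hFnet using hnets
  have hcovs := fun j => exists_piece_cover hK hL
    (show 0 < scale ρ j by linarith [half_le_scale hρ1 j]) (show 1 ≤ 64 * ρ by linarith) hρ hk
    (F j) (hFne j) (hFmem j) (hFnet j)
  choose C hCpos hClog hCcov using hcovs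
  obtain ⟨r, hr, hball⟩ := hL.exists_ball
  obtain ⟨M, hM, hKM⟩ := hK.1.isBounded.exists_pos_norm_le
  obtain ⟨I, hI⟩ := pow_unbounded_of_one_lt (M / r) (show (1 : ℝ) < 32 * ρ by linarith)
  set m := 2 * I with hm
  obtain ⟨D, hD, hDlog, hDcov⟩ := exists_multiscale_cover hL hρ1 C hCpos hCcov m
  -- the last scale lies inside `L`
  have hlast : ∀ k' ∈ K, (64 * ρ)⁻¹ ^ m • k' ∈ (1 / 2 : ℝ) ^ m • L := by
    intro k' hk'
    refine ⟨((32 * ρ)⁻¹) ^ m • k', hball ?_, ?_⟩
    · rw [mem_closedBall_zero_iff, norm_smul, Real.norm_of_nonneg (by positivity), inv_pow,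
        inv_mul_le_iff₀ (by positivity)]
      rw [div_lt_iff₀ hr] at hI
      calc ‖k'‖ ≤ M := hKM k' hk'
        _ ≤ (32 * ρ) ^ I * r := hI.le
        _ ≤ (32 * ρ) ^ m * r :=
          mul_le_mul_of_nonneg_right (pow_le_pow_right₀ (by linarith) (by omega)) hr.le
    · simp only [smul_smul, ← mul_pow]
      congr 2
      field_simp
      norm_num
  have hcovL : K ⊆ ⋃ c ∈ D, c +ᵥ L := by
    intro x hx
    obtain ⟨z, hz, u, hu, _, ⟨k', hk', rfl⟩, he⟩ := hDcov x hx
    simp only [Set.mem_iUnion]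
    refine ⟨z, hz, x - z, ?_, by simp⟩
    have h2 := Set.add_mem_add hu (hlast k' hk')
    simp only at he
    rw [he, ← hL.2.1.add_smul (by
      have : (1 / 2 : ℝ) ^ m ≤ 1 := pow_le_one₀ (by norm_num) (by norm_num)
      linarith) (by positivity), sub_add_cancel, one_smul] at h2
    exact h2
  set E := Real.log (N : ℝ) with hE
  set e : ℕ → ℝ := fun j => Real.log (F j).card with he
  have he0 : ∀ j, 0 ≤ e j := fun j => Real.log_natCast_nonneg _
  -- one residue class of scales at a time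
  have hclass : ∀ r' ∈ range 2, ∑ i ∈ range I, e (2 * i + r') ≤ E := by
    intro r' _
    have hs : ∀ i, scale ρ (2 * i + r') = scale ρ r' * (1024 * ρ ^ 2) ^ i := fun i => by
      rw [scale, scale, pow_add, pow_mul, show (32 * ρ) ^ 2 = 1024 * ρ ^ 2 by ring]; ring
    have hp := prod_card_le hK hL hρ1 (scale ρ r') (half_le_scale hρ1 r')
      (fun i => F (2 * i + r'))
      (fun i c hc => hs i ▸ hFmem _ c hc)
      (fun i c hc d hd hne => hs i ▸ hFsep _ c hc d hd hne) I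
    simp only [he, hE]
    rw [← Real.log_prod fun i _ => by exact_mod_cast (hFne _).card_pos.ne']
    refine Real.log_le_log (prod_pos fun i _ => by exact_mod_cast (hFne _).card_pos) ?_
    exact_mod_cast hp
  have hsum : ∑ j ∈ range m, e j ≤ 2 * E := by
    rw [hm, sum_range_two_mul]
    refine (sum_le_sum hclass).trans_eq ?_
    simp
  have hsum0 := sum_nonneg fun j (_ : j ∈ range m) => he0 j
  set c := 10780 * (64 * ρ) ^ 3 * ρ * (16 * k / ρ) ^ k with hc
  have hc0 : 0 ≤ c := by positivity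
  calc Real.log (coveringNum K L : ℝ) ≤ Real.log (D.card : ℝ) := by
        rcases Nat.eq_zero_or_pos (coveringNum K L) with h0 | h0
        · rw [h0, Nat.cast_zero, Real.log_zero]
          exact Real.log_natCast_nonneg _
        · exact Real.log_le_log (by exact_mod_cast h0) (by exact_mod_cast coveringNum_le hcovL)
    _ ≤ ∑ j ∈ range m, Real.log (C j).card := hDlog
    _ ≤ ∑ j ∈ range m, ((k + 1 : ℝ) * e j + c * e j ^ 2) := sum_le_sum fun j _ => hClog j
    _ ≤ (k + 1 : ℝ) * (∑ j ∈ range m, e j) + c * (∑ j ∈ range m, e j) ^ 2 := by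
        rw [sum_add_distrib, ← mul_sum, ← mul_sum]
        exact add_le_add_right
          (mul_le_mul_of_nonneg_left (sum_sq_le_sq_sum_of_nonneg fun j _ => he0 j) hc0) _
    _ ≤ (k + 1 : ℝ) * (2 * E) + c * (2 * E) ^ 2 := by gcongr
    _ = _ := by rw [hc]; ring

end Vale.Agent.P126
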