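import Vale.Agent.P126.Sample

/-!
Entropy projection by exponential tilting (P126): a target which is matched up to `e` by a
weight of bounded density is matched up to `e + Δ` by a tilt with a bounded parameter.
-/

open Finset Real

namespace Vale.Agent.P126

variable {σ : Type*}

/-- The normalised weight `exp G` on `S`. -/
noncomputable def gibbs (S : Finset σ) (G : σ → ℝ) (s : σ) : ℝ :=
  exp (G s) / ∑ u ∈ S, exp (G u)

theorem gibbs_pos {S : Finset σ} (hS : S.Nonempty) (G : σ → ℝ) (s : σ) : 0 < gibbs S G s :=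
  div_pos (exp_pos _) (sum_pos (fun _ _ => exp_pos _) hS)

theorem sum_gibbs {S : Finset σ} (hS : S.Nonempty) (G : σ → ℝ) : ∑ s ∈ S, gibbs S G s = 1 := by
  simp only [gibbs, ← sum_div]
  exact div_self (sum_pos (fun _ _ => exp_pos _) hS).ne'

theorem gibbs_le_exp_mul {S : Finset σ} (hS : S.Nonempty) {G G' : σ → ℝ} {d : ℝ}
    (h : ∀ s ∈ S, |G s - G' s| ≤ d) {s : σ} (hs : s ∈ S) :
    gibbs S G s ≤ exp (2 * d) * gibbs S G' s := by
  have hZ := sum_pos (fun u _ => exp_pos (G u)) hS
  have hZ' := sum_pos (fun u _ => exp_pos (G' u)) hS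
  have h1 : exp (G s) ≤ exp d * exp (G' s) := by
    rw [← exp_add, exp_le_exp]; linarith [(abs_le.1 (h s hs)).2]
  have h2 : ∑ u ∈ S, exp (G' u) ≤ exp d * ∑ u ∈ S, exp (G u) := by
    rw [mul_sum]
    refine sum_le_sum fun u hu => ?_
    rw [← exp_add, exp_le_exp]; linarith [(abs_le.1 (h u hu)).1]
  rw [gibbs, gibbs, mul_div_assoc', div_le_div_iff₀ hZ hZ',
    show exp (2 * d) = exp d * exp d by rw [← exp_add]; ring_nf]
  calc exp (G s) * ∑ u ∈ S, exp (G' u) ≤ (exp d * exp (G' s)) * (exp d * ∑ u ∈ S, exp (G u)) :=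
        mul_le_mul h1 h2 hZ'.le (by positivity)
    _ = _ := by ring

variable {ι : Type*} [Fintype ι]

/-- The tilt: an approximate maximum entropy weight with parameter of `ℓ¹` norm at most
`R / Δ`. -/
theorem exists_tilt (S : Finset σ) (hS : S.Nonempty) (G : σ → ℝ) (g : σ → ι → ℝ) (a : ι → ℝ)
    {B e Δ R : ℝ} (hB : 0 < B) (he : 0 ≤ e) (hg : ∀ s ∈ S, ∀ c, |g s c| ≤ B) (hΔ : 0 < Δ)
    (hR : 0 ≤ R) (p : σ → ℝ) (hp0 : ∀ s ∈ S, 0 ≤ p s) (hp1 : ∑ s ∈ S, p s = 1)
    (hfeas : ∀ c, |(∑ s ∈ S, p s * g s c) - a c| ≤ e)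
    (hdens : ∀ s ∈ S, p s ≤ exp R * gibbs S G s) :
    ∃ l : ι → ℝ, ∑ c, |l c| ≤ R / Δ ∧
      ∀ c, |(∑ s ∈ S, gibbs S (fun u => G u + ∑ d, l d * g u d) s * g s c) - a c| ≤ e + Δ := by
  classical
  set z : (ι → ℝ) → σ → ℝ := fun l u => ∑ d, l d * g u d with hz
  set Z : (ι → ℝ) → ℝ := fun l => ∑ u ∈ S, gibbs S G u * exp (z l u) with hZ
  set Φ : (ι → ℝ) → ℝ := fun l =>
    (∑ c, l c * a c) - (e + Δ) * (∑ c, |l c|) - log (Z l) with hΦ
  have hZpos : ∀ l, 0 < Z l := fun l =>
    sum_pos (fun u _ => mul_pos (gibbs_pos hS G u) (exp_pos _)) hS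
  have hbound : ∀ l, Φ l ≤ R - Δ * ∑ c, |l c| := by
    intro l
    have h1 : ∑ c, l c * a c ≤ (∑ s ∈ S, p s * z l s) + e * ∑ c, |l c| := by
      have e1 : ∑ s ∈ S, p s * z l s = ∑ c, l c * ∑ s ∈ S, p s * g s c := by
        simp only [hz, mul_sum]
        rw [sum_comm]
        exact sum_congr rfl fun c _ => sum_congr rfl fun s _ => by ring
      rw [e1, mul_sum, ← sum_add_distrib]
      refine sum_le_sum fun c _ => ?_
      have := (le_abs_self _).trans_eq (abs_mul (l c) (a c - ∑ s ∈ S, p s * g s c))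
      have h2 := mul_le_mul_of_nonneg_left
        (show |a c - ∑ s ∈ S, p s * g s c| ≤ e by rw [abs_sub_comm]; exact hfeas c)
        (abs_nonneg (l c))
      rw [mul_sub] at this
      linarith
    have h3 : exp (∑ s ∈ S, p s * z l s) ≤ exp R * Z l := by
      have := convexOn_exp.map_sum_le hp0 hp1 (p := z l) fun s _ => Set.mem_univ _
      simp only [smul_eq_mul] at this
      refine this.trans ?_
      rw [hZ, mul_sum]
      refine sum_le_sum fun s hs => ?_
      rw [← mul_assoc]
      exact mul_le_mul_of_nonneg_right (hdens s hs) (exp_pos _).le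
    have h4 := log_le_log (exp_pos _) h3
    rw [log_exp, log_mul (exp_pos _).ne' (hZpos l).ne', log_exp] at h4
    simp only [hΦ]
    linarith
  have hcont : Continuous Φ := by
    simp only [hΦ, hZ, hz]
    refine (Continuous.sub (by fun_prop) (by fun_prop)).sub
      (Continuous.log (by fun_prop) fun l => (hZpos l).ne')
  set Q : Set (ι → ℝ) := {l | ∑ c, |l c| ≤ R / Δ} with hQ
  have hQc : IsCompact Q := by
    refine (isCompact_closedBall (0 : ι → ℝ) (R / Δ)).of_isClosed_subset
      (isClosed_le (by fun_prop) continuous_const) fun l hl => ?_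
    rw [mem_closedBall_zero_iff, pi_norm_le_iff_of_nonneg (by positivity)]
    intro c
    exact (single_le_sum (f := fun c => |l c|) (fun c _ => abs_nonneg _) (mem_univ c)).trans hl
  have h0Q : (0 : ι → ℝ) ∈ Q := by simp [hQ]; positivity
  obtain ⟨l, hl, hmax⟩ := hQc.exists_isMaxOn ⟨0, h0Q⟩ hcont.continuousOn
  have hΦ0 : Φ 0 = 0 := by simp [hΦ, hZ, hz, sum_gibbs hS G]
  have hglob : ∀ l', Φ l' ≤ Φ l := by
    intro l'
    by_cases h : l' ∈ Q
    · exact hmax h
    · have h1 : R / Δ < ∑ c, |l' c| := not_le.1 h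
      rw [div_lt_iff₀ hΔ] at h1
      have h2 : Φ 0 ≤ Φ l := hmax h0Q
      linarith [hbound l']
  refine ⟨l, hl, fun c => ?_⟩
  set q : σ → ℝ := gibbs S (fun u => G u + z l u) with hq
  set μ := ∑ s ∈ S, q s * g s c with hμ
  have hq1 : ∑ s ∈ S, q s = 1 := sum_gibbs hS _
  have hq0 : ∀ s, 0 ≤ q s := fun s => (gibbs_pos hS _ s).le
  have hμB : |μ| ≤ B := by
    refine (abs_sum_le_sum_abs _ _).trans ?_
    calc ∑ s ∈ S, |q s * g s c| ≤ ∑ s ∈ S, q s * B := sum_le_sum fun s hs => by
          rw [abs_mul, abs_of_nonneg (hq0 s)]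
          exact mul_le_mul_of_nonneg_left (hg s hs c) (hq0 s)
      _ = B := by rw [← sum_mul, hq1, one_mul]
  have hpert : ∀ h : ℝ, h * (a c - μ) ≤ (e + Δ) * |h| + 2 * B ^ 2 * h ^ 2 := by
    intro h
    have hm := hglob (l + Pi.single c h)
    have e1 : ∀ u, z (l + Pi.single c h) u = z l u + h * g u c := fun u => by
      simp [hz, add_mul, sum_add_distrib, Pi.single_apply]
    have e2 : ∑ d, (l + Pi.single c h : ι → ℝ) d * a d = (∑ d, l d * a d) + h * a c := by
      simp [add_mul, sum_add_distrib, Pi.single_apply]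
    have e3 : ∑ d, |(l + Pi.single c h : ι → ℝ) d| ≤ (∑ d, |l d|) + |h| := by
      refine (sum_le_sum fun d _ => abs_add_le (l d) _).trans ?_
      rw [sum_add_distrib]
      simp [Pi.single_apply, apply_ite abs]
    have e4 : Z (l + Pi.single c h) = Z l * ∑ u ∈ S, q u * exp (h * g u c) := by
      simp only [hZ, e1, hq, gibbs, exp_add, mul_sum]
      refine sum_congr rfl fun u _ => ?_
      have hne := (sum_pos (fun v _ => mul_pos (exp_pos (G v)) (exp_pos (z l v))) hS).ne'
      have hne' := (sum_pos (fun v _ => exp_pos (G v)) hS).ne'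
      simp only [div_mul_eq_mul_div, ← sum_div]
      field_simp
    have h5 : ∑ u ∈ S, q u * exp (h * g u c) ≤ exp (h * μ + 2 * B ^ 2 * h ^ 2) := by
      calc ∑ u ∈ S, q u * exp (h * g u c)
          = exp (h * μ) * ∑ u ∈ S, q u * exp ((2 * B * h) * ((g u c - μ) / (2 * B))) := by
            rw [mul_sum]
            refine sum_congr rfl fun u _ => ?_
            rw [show h * g u c = h * μ + 2 * B * h * ((g u c - μ) / (2 * B)) by field_simp; ring,
              exp_add]
            ring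
        _ ≤ exp (h * μ) * ∑ u ∈ S, q u *
            (cosh (2 * B * h) + (g u c - μ) / (2 * B) * sinh (2 * B * h)) := by
            refine mul_le_mul_of_nonneg_left (sum_le_sum fun u hu =>
              mul_le_mul_of_nonneg_left (exp_mul_le_cosh_add ?_) (hq0 u)) (exp_pos _).le
            rw [abs_div, abs_of_pos (show 0 < 2 * B by linarith), div_le_one (by linarith)]
            exact (abs_sub _ _).trans (by linarith [hg u hu c])
        _ = exp (h * μ) * cosh (2 * B * h) := by
            simp only [mul_add, sum_add_distrib, ← sum_mul, hq1, one_mul, ← mul_assoc,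
              mul_div_assoc', ← sum_div, mul_sub, sum_sub_distrib, ← hμ]
            ring
        _ ≤ _ := by
            rw [exp_add]
            refine mul_le_mul_of_nonneg_left ((cosh_le_exp_half_sq _).trans ?_) (exp_pos _).le
            rw [exp_le_exp]
            exact le_of_eq (by ring)
    have hpos : 0 < ∑ u ∈ S, q u * exp (h * g u c) :=
      sum_pos (fun u _ => mul_pos (gibbs_pos hS _ u) (exp_pos _)) hS
    have h6 := log_le_log hpos h5
    rw [log_exp] at h6
    simp only [hΦ] at hm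
    rw [e2, e4, log_mul (hZpos l).ne' hpos.ne'] at hm
    have h7 := mul_le_mul_of_nonneg_left e3 (show 0 ≤ e + Δ by linarith)
    linarith
  refine le_of_forall_pos_le_add fun δ hδ => ?_
  have hB2 : 0 < 2 * B ^ 2 := by positivity
  set h := δ / (2 * B ^ 2) with hh
  have hh0 : 0 < h := div_pos hδ hB2
  have h1 := hpert h
  have h2 := hpert (-h)
  rw [abs_neg, abs_of_pos hh0] at h2
  rw [abs_of_pos hh0] at h1
  have e5 : 2 * B ^ 2 * h ^ 2 = h * δ := by rw [hh]; field_simp
  rw [neg_sq] at h2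
  rw [abs_le]
  constructor
  · have : h * (a c - μ) ≤ h * (e + Δ + δ) := by linarith
    linarith [le_of_mul_le_mul_left this hh0]
  · have : h * (μ - a c) ≤ h * (e + Δ + δ) := by linarith
    linarith [le_of_mul_le_mul_left this hh0]

end Vale.Agent.P126
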