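import Vale.Agent.P126.Basic
import Vale.Agent.P126.Tilt

/-!
One scale of the duality estimate (P126): a fine net of a piece of the polar, used in `k`
stages of exponential tilting, gives a cover of `K` by translates of `t L + K / B`.
-/

open scoped InnerProductSpace Pointwise
open Finset

namespace Vale.Agent.P126

variable {n : ℕ} {K L : Set (Space n)} {t B ρ : ℝ}

/-- The piece `L° ∩ B t K°` of the polar. -/
def piece (K L : Set (Space n)) (t B : ℝ) : Set (Space n) :=
  {y | y ∈ polarBody L ∧ ∀ x ∈ K, |⟪x, y⟫_ℝ| ≤ B * t}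

theorem zero_mem_piece (hBt : 0 ≤ B * t) : (0 : Space n) ∈ piece K L t B :=
  ⟨zero_mem_polarBody L, fun x _ => by simpa using hBt⟩

/-- A maximal `t / ρ` separated subset of the piece. -/
theorem exists_piece_net (hK : IsSymmBody K) (hL : IsSymmBody L) (ht : 1 / 2 ≤ t) (hB : 0 ≤ B)
    (hρ : 0 < ρ) :
    ∃ F : Finset (Space n), F.Nonempty ∧ (∀ c ∈ F, c ∈ piece K L t B) ∧
      (∀ c ∈ F, ∀ d ∈ F, c ≠ d → ∃ x ∈ K, t / ρ < |⟪x, c - d⟫_ℝ|) ∧
      ∀ y ∈ piece K L t B, ∃ c ∈ F, ∀ x ∈ K, |⟪x, y - c⟫_ℝ| ≤ t / ρ := by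
  classical
  let good : Finset (Space n) → Prop := fun F => (∀ c ∈ F, c ∈ piece K L t B) ∧
    ∀ c ∈ F, ∀ d ∈ F, c ≠ d → ∃ x ∈ K, t / ρ < |⟪x, c - d⟫_ℝ|
  set N := coveringNum (polarBody L) ((4 * ρ)⁻¹ • polarBody K)
  have hbound : ∀ F, good F → F.card ≤ N := fun F hF =>
    card_separated_le hK hL (by positivity) F (fun g hg => (hF.1 g hg).1) fun g hg h hh hne => by
      obtain ⟨x, hx, h2⟩ := hF.2 g hg h hh hne
      refine ⟨x, hx, lt_of_le_of_lt ?_ h2⟩
      rw [show (2 : ℝ) / (4 * ρ) = (1 / 2) / ρ by ring]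
      exact div_le_div_of_nonneg_right ht hρ.le
  let P : ℕ → Prop := fun k => ∃ F, good F ∧ F.card = k
  have hP0 : P 1 := ⟨{0}, ⟨fun c hc => by
      rw [mem_singleton.1 hc]; exact zero_mem_piece (mul_nonneg hB (by linarith)),
    fun c hc d hd hne => absurd ((mem_singleton.1 hc).trans (mem_singleton.1 hd).symm) hne⟩, rfl⟩
  have hN1 : 1 ≤ N := by
    obtain ⟨F, hF, hc⟩ := hP0
    exact hc ▸ hbound F hF
  obtain ⟨F, hF, hcard⟩ : P (Nat.findGreatest P N) := Nat.findGreatest_spec hN1 hP0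
  have h1 : 1 ≤ F.card := hcard ▸ Nat.le_findGreatest hN1 hP0
  refine ⟨F, card_pos.1 h1, hF.1, hF.2, fun y hy => ?_⟩
  by_contra hne
  push Not at hne
  have hnew : good (insert y F) := by
    refine ⟨fun c hc => ?_, fun c hc d hd hcd => ?_⟩
    · rcases mem_insert.1 hc with rfl | hc
      · exact hy
      · exact hF.1 c hc
    · rcases mem_insert.1 hc with rfl | hc' <;> rcases mem_insert.1 hd with rfl | hd'
      · exact absurd rfl hcd
      · exact hne d hd'
      · obtain ⟨x, hx, h⟩ := hne c hc'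
        refine ⟨x, hx, ?_⟩
        rwa [← neg_sub d c, inner_neg_right, abs_neg]
      · exact hF.2 c hc' d hd' hcd
  have hy' : y ∉ F := fun h => by
    obtain ⟨x, hx, h'⟩ := hne y h
    rw [sub_self, inner_zero_right, abs_zero] at h'
    linarith [show 0 ≤ t / ρ from div_nonneg (by linarith) hρ.le]
  have := Nat.le_findGreatest (P := P) (hbound _ hnew) ⟨_, hnew, rfl⟩
  rw [card_insert_of_notMem hy', ← hcard] at this
  omega

/-- A functional normalised on `t L + K / B` gives a point of the piece. -/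
theorem smul_mem_piece (hK : IsSymmBody K) (hL : IsSymmBody L) (ht : 0 < t) (hB : 0 < B)
    {y : Space n} (hy : ∀ w ∈ t • L + B⁻¹ • K, ⟪w, y⟫_ℝ ≤ 1) : t • y ∈ piece K L t B := by
  refine ⟨fun l hl => ?_, fun x hx => ?_⟩
  · have := hy (t • l + B⁻¹ • (0 : Space n))
      (Set.add_mem_add (Set.smul_mem_smul_set hl) (Set.smul_mem_smul_set hK.zero_mem))
    rw [smul_zero, add_zero, real_inner_smul_left] at this
    rwa [real_inner_smul_right]
  · have h : ∀ x ∈ K, ⟪x, y⟫_ℝ ≤ B := fun x hx => by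
      have := hy (t • (0 : Space n) + B⁻¹ • x)
        (Set.add_mem_add (Set.smul_mem_smul_set hL.zero_mem) (Set.smul_mem_smul_set hx))
      rw [smul_zero, zero_add, real_inner_smul_left, inv_mul_le_iff₀ hB, mul_one] at this
      exact this
    have h2 := h (-x) (hK.2.2.2 x hx)
    rw [inner_neg_left] at h2
    rw [real_inner_smul_right, abs_mul, abs_of_pos ht, mul_comm B t]
    exact mul_le_mul_of_nonneg_left (abs_le.2 ⟨by linarith, h x hx⟩) ht.le

theorem abs_inner_le_one (hL : IsSymmBody L) {c l : Space n} (hc : c ∈ polarBody L) (hl : l ∈ L) :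
    |⟪l, c⟫_ℝ| ≤ 1 := by
  have h1 := hc l hl
  have h2 := hc (-l) (hL.2.2.2 l hl)
  rw [inner_neg_left] at h2
  exact abs_le.2 ⟨by linarith, h1⟩

theorem sum_smul_mem_piece (hL : IsSymmBody L) (hBt : 0 ≤ B * t) {F : Finset (Space n)}
    (hF : ∀ c ∈ F, c ∈ piece K L t B) (w : F → ℝ) (hw : ∑ c, |w c| ≤ 1) :
    ∑ c, w c • (c : Space n) ∈ piece K L t B := by
  have key : ∀ x : Space n, ∀ b : ℝ, 0 ≤ b → (∀ c : F, |⟪x, (c : Space n)⟫_ℝ| ≤ b) →
      |⟪x, ∑ c, w c • (c : Space n)⟫_ℝ| ≤ b := by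
    intro x b hb h
    rw [inner_sum]
    refine (abs_sum_le_sum_abs _ _).trans ?_
    calc ∑ c, |⟪x, w c • (c : Space n)⟫_ℝ| ≤ ∑ c, |w c| * b := sum_le_sum fun c _ => by
          rw [real_inner_smul_right, abs_mul]
          exact mul_le_mul_of_nonneg_left (h c) (abs_nonneg _)
      _ ≤ 1 * b := by rw [← sum_mul]; exact mul_le_mul_of_nonneg_right hw hb
      _ = b := one_mul b
  refine ⟨fun l hl => ?_, fun x hx => key x _ hBt fun c => (hF c c.2).2 x hx⟩
  exact (le_abs_self _).trans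
    (key l 1 zero_le_one fun c => abs_inner_le_one hL (hF c c.2).1 hl)

/-- The value of the functional `c / t`. -/
noncomputable def gval (t : ℝ) (x c : Space n) : ℝ := ⟪x, c⟫_ℝ / t

/-- The exponent of the weight after the stages coded by `code`. -/
noncomputable def tiltExp (t : ℝ) {i : ℕ} (lam : ℕ → ℝ) (code : Fin i → Space n) (s : Space n) :
    ℝ :=
  ∑ j : Fin i, lam j * gval t s (code j)

/-- One scale: the fine net `F` of the piece gives, by `k` stages of tilting, a cover of `K`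
by translates of `t L + K / B`. -/
theorem exists_piece_cover (hK : IsSymmBody K) (hL : IsSymmBody L) (ht : 0 < t) (hB : 1 ≤ B)
    (hρ : 48 ≤ ρ) {k : ℕ} (hk : 1 ≤ k) (F : Finset (Space n)) (hFne : F.Nonempty)
    (hF : ∀ c ∈ F, c ∈ piece K L t B)
    (hnet : ∀ y ∈ piece K L t B, ∃ c ∈ F, ∀ x ∈ K, |⟪x, y - c⟫_ℝ| ≤ t / ρ) :
    ∃ C : Finset (Space n), 0 < C.card ∧
      Real.log C.card ≤ (k + 1 : ℝ) * Real.log F.card +
        10780 * B ^ 3 * ρ * (16 * k / ρ) ^ k * Real.log F.card ^ 2 ∧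
      ∀ x ∈ K, ∃ z ∈ C, x - z ∈ t • L + B⁻¹ • K := by
  classical
  have hB0 : 0 < B := by linarith
  have hρ0 : 0 < ρ := by linarith
  have hBt : 0 ≤ B * t := by positivity
  set η := ρ⁻¹ with hη
  have hη0 : 0 < η := inv_pos.2 hρ0
  have hη48 : η ≤ 1 / 48 := by rw [hη, one_div]; exact inv_anti₀ (by norm_num) hρ
  set W := t • L + B⁻¹ • K with hW
  have hWc : IsCompact W := (hL.1.smul t).add (hK.1.smul _)
  have hWconv : Convex ℝ W := (hL.2.1.smul t).add (hK.2.1.smul _)
  have hW0 : (0 : Space n) ∈ W :=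
    ⟨0, ⟨0, hL.zero_mem, smul_zero t⟩, 0, ⟨0, hK.zero_mem, smul_zero _⟩, add_zero 0⟩
  set g := gval (n := n) t with hg
  have hgR : ∀ x ∈ K, ∀ c ∈ F, |g x c| ≤ B := fun x hx c hc => by
    rw [hg, gval, abs_div, abs_of_pos ht, div_le_iff₀ ht]
    exact (hF c hc).2 x hx
  have hclose : ∀ y ∈ piece K L t B, ∃ c ∈ F, ∀ x ∈ K, |g x y - g x c| ≤ η := by
    intro y hy
    obtain ⟨c, hc, h⟩ := hnet y hy
    refine ⟨c, hc, fun x hx => ?_⟩
    rw [hg, gval, gval, ← sub_div, ← inner_sub_right, abs_div, abs_of_pos ht, div_le_iff₀ ht]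
    exact (h x hx).trans_eq (by rw [hη]; ring)
  -- functionals normalised on `W` are close to elements of `F / t`
  have happ : ∀ y : Space n, (∀ w ∈ W, ⟪w, y⟫_ℝ ≤ 1) →
      ∃ c ∈ F, ∀ x ∈ K, |⟪x, y⟫_ℝ - g x c| ≤ η := by
    intro y hy
    obtain ⟨c, hc, h⟩ := hclose _ (smul_mem_piece hK hL ht hB0 hy)
    refine ⟨c, hc, fun x hx => ?_⟩
    have e : ⟪x, y⟫_ℝ = g x (t • y) := by
      rw [hg, gval, real_inner_smul_right, mul_div_cancel_left₀ _ ht.ne']
    rw [e]
    exact h x hx
  rcases (Nat.one_le_iff_ne_zero.2 hFne.card_pos.ne').eq_or_lt with h1 | h2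
  · -- a single functional: one translate suffices
    refine ⟨{0}, by simp, by simp [← h1], fun x hx => ⟨0, mem_singleton_self 0, ?_⟩⟩
    obtain ⟨c₀, rfl⟩ := card_eq_one.1 h1.symm
    refine mem_of_polar hWc hWconv hW0 fun y hy => ?_
    obtain ⟨c, hc, h⟩ := happ y hy
    obtain ⟨d, hd, hd'⟩ := hclose 0 (zero_mem_piece hBt)
    obtain rfl := mem_singleton.1 hc
    obtain rfl := mem_singleton.1 hd
    have h3 : |g x d| ≤ η := by
      have := hd' x hx
      rwa [show g x 0 = 0 by simp [hg, gval], zero_sub, abs_neg] at this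
    rw [sub_zero]
    linarith [(abs_le.1 (h x hx)).2, (abs_le.1 h3).2]
  -- representatives of the bins
  set M : ℕ := ⌈B * ρ⌉₊ with hM
  let bin : Space n → Space n → ℤ := fun x c => ⌊ρ * g x c⌋
  have hbin : ∀ x ∈ K, ∀ c ∈ F, bin x c ∈ Icc (-(M : ℤ)) M := fun x hx c hc => by
    obtain ⟨hl, hu⟩ := abs_le.1 (hgR x hx c hc)
    have hMB : B * ρ ≤ M := Nat.le_ceil _
    have h1 := mul_le_mul_of_nonneg_left hl hρ0.le
    have h2 := mul_le_mul_of_nonneg_left hu hρ0.le
    refine mem_Icc.2 ⟨Int.le_floor.2 (by push_cast; linarith), ?_⟩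
    have : bin x c ≤ ⌊((M : ℤ) : ℝ)⌋ := Int.floor_le_floor (by push_cast; linarith)
    simpa using this
  let rep : Space n × ℤ → Space n := fun ck =>
    if h : ∃ x ∈ K, bin x ck.1 = ck.2 then h.choose else 0
  let S : Finset (Space n) := insert 0 ((F ×ˢ Icc (-(M : ℤ)) M).image rep)
  have hSne : S.Nonempty := insert_nonempty _ _
  have hSK : ∀ s ∈ S, s ∈ K := fun s hs => by
    rcases mem_insert.1 hs with rfl | hs
    · exact hK.zero_mem
    obtain ⟨ck, -, rfl⟩ := mem_image.1 hs
    simp only [rep]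
    split_ifs with h
    · exact h.choose_spec.1
    · exact hK.zero_mem
  set f := F.card with hf
  have hScard : S.card ≤ f * (2 * M + 2) := by
    refine (card_insert_le _ _).trans ?_
    have := card_image_le (s := F ×ˢ Icc (-(M : ℤ)) M) (f := rep)
    rw [card_product, Int.card_Icc, show ((M : ℤ) + 1 - -(M : ℤ)).toNat = 2 * M + 1 by omega,
      ← hf] at this
    have h3 : f * (2 * M + 2) = f * (2 * M + 1) + f := by ring
    omega
  have hmix : ∀ x ∈ K, ∃ p : Space n → ℝ, (∀ s ∈ S, 0 ≤ p s) ∧ ∑ s ∈ S, p s = 1 ∧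
      ∀ c ∈ F, |(∑ s ∈ S, p s * g s c) - g x c| ≤ 6 * η := by
    intro x hx
    have hx' : x ∈ convexHull ℝ (S : Set (Space n)) + (3 * η) • W := by
      refine mem_of_polar (((Finset.finite_toSet S).isCompact_convexHull (𝕜 := ℝ)).add (hWc.smul _))
        ((convex_convexHull ℝ _).add (hWconv.smul _))
        ⟨0, subset_convexHull ℝ _ (mem_insert_self 0 _), 0, ⟨0, hW0, smul_zero _⟩, add_zero 0⟩
        fun y hy => ?_
      obtain ⟨w₀, hw₀, hmax⟩ :=
        hWc.exists_isMaxOn ⟨0, hW0⟩ ((continuous_id.inner continuous_const).continuousOn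
          (f := fun w : Space n => ⟪w, y⟫_ℝ))
      refine le_of_forall_pos_le_add fun δ' hδ' => ?_
      set δ := δ' / (3 * η) with hδd
      have hδ : 0 < δ := by positivity
      set N₀ := ⟪w₀, y⟫_ℝ + δ with hN₀
      have hN0 : 0 < N₀ := by
        have := hmax hW0
        simp only [Set.mem_ofPred_eq, inner_zero_left] at this
        linarith
      obtain ⟨c, hc, h⟩ := happ (N₀⁻¹ • y) fun w hw => by
        have := hmax hw
        simp only [Set.mem_ofPred_eq] at this
        rw [real_inner_smul_right, inv_mul_le_iff₀ hN0, mul_one]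
        linarith
      set s := rep (c, bin x c) with hs
      have hsS : s ∈ S := mem_insert_of_mem
        (mem_image_of_mem _ (mem_product.2 ⟨hc, hbin x hx c hc⟩))
      have hsbin : bin s c = bin x c := by
        have hex : ∃ x' ∈ K, bin x' c = bin x c := ⟨x, hx, rfl⟩
        simp only [hs, rep, dif_pos hex]
        exact hex.choose_spec.2
      have hxs : g x c - g s c ≤ η := by
        have h1 := Int.floor_le (ρ * g s c)
        have h2 := Int.lt_floor_add_one (ρ * g x c)
        simp only [bin] at hsbin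
        rw [← hsbin] at h2
        have h3 : ρ * (g x c - g s c) ≤ 1 := by rw [mul_sub]; linarith
        rw [hη, inv_eq_one_div, le_div_iff₀ hρ0]
        linarith
      have h1 := (abs_le.1 (h x hx)).2
      have h2 := (abs_le.1 (h s (hSK s hsS))).1
      rw [real_inner_smul_right] at h1 h2
      have h4 : N₀⁻¹ * ⟪x, y⟫_ℝ ≤ N₀⁻¹ * ⟪s, y⟫_ℝ + 3 * η := by linarith
      have h5 := mul_le_mul_of_nonneg_left h4 hN0.le
      rw [mul_add, ← mul_assoc, ← mul_assoc, mul_inv_cancel₀ hN0.ne', one_mul, one_mul] at h5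
      have h6 := hy _ (Set.add_mem_add (subset_convexHull ℝ _ hsS)
        (Set.smul_mem_smul_set (a := 3 * η) hw₀))
      rw [inner_add_left, real_inner_smul_left] at h6
      have h7 : 3 * η * δ = δ' := by rw [hδd]; field_simp
      rw [hN₀, add_mul, mul_comm δ, h7] at h5
      linarith
    obtain ⟨x', hx'S, _, ⟨w, hw, rfl⟩, rfl⟩ := hx'
    obtain ⟨p, hp0, hp1, hpx⟩ := Finset.mem_convexHull'.1 hx'S
    refine ⟨p, hp0, hp1, fun c hc => ?_⟩
    have e1 : g x' c = ∑ u ∈ S, p u * g u c := by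
      simp only [hg, gval, ← hpx, sum_inner, real_inner_smul_left, sum_div, mul_div_assoc]
    obtain ⟨_, ⟨l, hl, rfl⟩, _, ⟨m, hm, rfl⟩, rfl⟩ := hw
    have hwc : |g (t • l + B⁻¹ • m) c| ≤ 2 := by
      rw [hg, gval, inner_add_left, real_inner_smul_left, real_inner_smul_left, add_div,
        mul_div_cancel_left₀ _ ht.ne']
      refine (abs_add_le _ _).trans ?_
      have h1 := abs_inner_le_one hL (hF c hc).1 hl
      have h2 : |B⁻¹ * ⟪m, c⟫_ℝ / t| ≤ 1 := by
        rw [abs_div, abs_mul, abs_inv, abs_of_pos hB0, abs_of_pos ht, div_le_one ht,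
          inv_mul_le_iff₀ hB0]
        exact (hF c hc).2 m hm
      linarith
    rw [← e1]
    have e2 : g (x' + (3 * η) • (t • l + B⁻¹ • m)) c =
        g x' c + 3 * η * g (t • l + B⁻¹ • m) c := by
      rw [hg, gval, gval, gval, inner_add_left, real_inner_smul_left]
      ring
    rw [e2, sub_add_cancel_left, abs_neg, abs_mul, abs_of_pos (show 0 < 3 * η by linarith)]
    exact (mul_le_mul_of_nonneg_left hwc (by linarith)).trans_eq (by ring)
  -- the schedule of the stages
  set Δ : ℝ := 1 / (8 * k) with hΔ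
  have hk0 : (0 : ℝ) < k := by exact_mod_cast hk
  have hΔ0 : 0 < Δ := by positivity
  set θ : ℝ := 16 * k / ρ with hθ
  have hθ0 : 0 ≤ θ := by positivity
  set R₀ := Real.log S.card with hR₀
  have hR₀0 : 0 ≤ R₀ := Real.log_natCast_nonneg _
  let lam : ℕ → ℝ := fun j => θ ^ j * R₀ / Δ
  have hstep : ∀ j, 2 * (lam j * η) = θ ^ (j + 1) * R₀ := fun j => by
    simp only [lam, hΔ, hη, hθ, pow_succ]
    field_simp
    ring
  have hstages : ∀ i : ℕ, ∀ x ∈ K, ∃ code : Fin i → Space n, (∀ j, code j ∈ F) ∧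
      ∃ p : Space n → ℝ, (∀ s ∈ S, 0 ≤ p s) ∧ ∑ s ∈ S, p s = 1 ∧
        (∀ c ∈ F, |(∑ s ∈ S, p s * g s c) - g x c| ≤ 6 * η + i * Δ) ∧
        ∀ s ∈ S, p s ≤ Real.exp (θ ^ i * R₀) * gibbs S (tiltExp t lam code) s := by
    intro i
    induction i with
    | zero =>
      intro x hx
      obtain ⟨p, hp0, hp1, hp⟩ := hmix x hx
      refine ⟨Fin.elim0, fun j => j.elim0, p, hp0, hp1, fun c hc => by simpa using hp c hc,
        fun s hs => ?_⟩
      have hc0 : (0 : ℝ) < S.card := by exact_mod_cast hSne.card_pos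
      have : gibbs S (tiltExp t lam (Fin.elim0 : Fin 0 → Space n)) s = (S.card : ℝ)⁻¹ := by
        simp [gibbs, tiltExp]
      rw [this, pow_zero, one_mul, hR₀, Real.exp_log hc0, mul_inv_cancel₀ hc0.ne', ← hp1]
      exact single_le_sum hp0 hs
    | succ i ih =>
      intro x hx
      obtain ⟨code, hcode, p, hp0, hp1, hpf, hpd⟩ := ih x hx
      have hRi : 0 ≤ θ ^ i * R₀ := by positivity
      obtain ⟨l, hl, hlf⟩ := exists_tilt S hSne (tiltExp t lam code) (fun s (c : F) => g s c)
        (fun c => g x c) hB0 (by positivity) (fun s hs c => hgR s (hSK s hs) c c.2) hΔ0 hRi p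
        hp0 hp1 (fun c => hpf c c.2) hpd
      have hli : 0 ≤ lam i := div_nonneg hRi hΔ0.le
      set y : Space n := ∑ c, (l c / lam i) • (c : Space n) with hy
      have hyP : y ∈ piece K L t B := by
        refine sum_smul_mem_piece hL hBt hF _ ?_
        simp only [abs_div, ← sum_div, abs_of_nonneg hli]
        exact div_le_one_of_le₀ hl hli
      obtain ⟨c', hc', hy'⟩ := hclose y hyP
      refine ⟨Fin.snoc code c', fun j => ?_, fun s => gibbs S
        (fun u => tiltExp t lam code u + ∑ d, l d * g u d) s, fun s _ => (gibbs_pos hSne _ s).le,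
        sum_gibbs hSne _, fun c hc => (hlf ⟨c, hc⟩).trans_eq (by push_cast; ring), fun s hs => ?_⟩
      · refine Fin.lastCases ?_ (fun j => ?_) j
        · rwa [Fin.snoc_last]
        · rw [Fin.snoc_castSucc]; exact hcode j
      rw [← hstep i]
      refine gibbs_le_exp_mul hSne (fun u hu => ?_) hs
      have e : ∑ d, l d * g u d = lam i * g u y := by
        rw [hy, hg, gval, inner_sum, sum_div, mul_sum]
        refine sum_congr rfl fun d _ => ?_
        rw [real_inner_smul_right]
        rcases eq_or_ne (lam i) 0 with h0 | h0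
        · have hld : l d = 0 := by
            have h1 := (single_le_sum (f := fun d => |l d|) (fun d _ => abs_nonneg _)
              (mem_univ d)).trans hl
            rw [show θ ^ i * R₀ / Δ = 0 from h0] at h1
            exact abs_nonpos_iff.1 h1
          simp [h0, hld]
        · simp only [gval]
          field_simp
      have e2 : tiltExp t lam (Fin.snoc code c') u = tiltExp t lam code u + lam i * g u c' := by
        simp [tiltExp, Fin.sum_univ_castSucc, hg]
      rw [e, e2, show tiltExp t lam code u + lam i * g u y - (tiltExp t lam code u + lam i * g u c')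
        = lam i * (g u y - g u c') by ring, abs_mul, abs_of_nonneg hli]
      exact mul_le_mul_of_nonneg_left (hy' u (hSK u hu)) hli
  -- sampling
  set T : ℕ := ⌈512 * B ^ 2 * Real.log (4 * f)⌉₊ with hT
  have hf2 : (2 : ℝ) ≤ f := by exact_mod_cast h2
  have hlog4 : 0 < Real.log (4 * f) := Real.log_pos (by linarith)
  have hT0 : 0 < T := Nat.ceil_pos.2 (by positivity)
  have hTexp : 4 * (f : ℝ) ≤ Real.exp ((T : ℝ) * ((1 / 8 : ℝ) / (2 * B)) ^ 2 / 2) := by
    rw [← Real.log_le_iff_le_exp (by linarith)]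
    have h3 : 512 * B ^ 2 * Real.log (4 * f) ≤ T := Nat.le_ceil _
    rw [show (T : ℝ) * ((1 / 8 : ℝ) / (2 * B)) ^ 2 / 2 = T / (512 * B ^ 2) by field_simp; ring,
      le_div_iff₀ (by positivity)]
    linarith
  have hk' := hstages k
  choose! code hcode p hp0 hp1 hpf hpd using hk'
  have htot : ∀ x ∈ K, ∀ c ∈ F, |(∑ s ∈ S, p x s * g s c) - g x c| ≤ 1 / 4 := fun x hx c hc => by
    refine (hpf x hx c hc).trans ?_
    have : (k : ℝ) * Δ = 1 / 8 := by rw [hΔ]; field_simp
    linarith
  set r := θ ^ k * R₀ with hr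
  set nmax : ℝ := (f : ℝ) ^ k * (2 * Real.exp (r * T)) with hnmax
  have hpack : ∀ X : Finset (Space n), (∀ x ∈ X, x ∈ K) →
      (∀ x ∈ X, ∀ z ∈ X, x ≠ z → ∃ c ∈ F, 3 / 4 < |g x c - g z c|) → (X.card : ℝ) ≤ nmax := by
    intro X hXK hXsep
    let A : Space n → Finset (Fin T → Space n) := fun x =>
      (Fintype.piFinset fun _ : Fin T => S).filter fun s =>
        ∀ c ∈ F, |(∑ j, g (s j) c) / T - ∑ u ∈ S, p x u * g u c| ≤ 1 / 8
    have hfib : ∀ cd : Fin k → Space n,
        ((X.filter fun x => code x = cd).card : ℝ) ≤ 2 * Real.exp (r * T) := by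
      intro cd
      set Y := X.filter fun x => code x = cd with hY
      let q : (Fin T → Space n) → ℝ := fun s => ∏ j, gibbs S (tiltExp t lam cd) (s j)
      have hq0 : ∀ s, 0 ≤ q s := fun s => prod_nonneg fun j _ => (gibbs_pos hSne _ _).le
      have hmass : ∀ x ∈ Y, 1 / 2 ≤ Real.exp (r * T) * ∑ s ∈ A x, q s := by
        intro x hx
        obtain ⟨hxX, hxc⟩ := mem_filter.1 hx
        have hxK := hXK x hxX
        refine (half_le_mass_approx S (p x) (hp0 x hxK) (hp1 x hxK) F g hB0 (by norm_num)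
          (fun u hu c hc => hgR u (hSK u hu) c hc) T hTexp (A x)
          (fun s hs hs' => mem_filter.2 ⟨Fintype.mem_piFinset.2 hs, hs'⟩)
          (fun s hs => Fintype.mem_piFinset.1 (mem_filter.1 hs).1)).trans ?_
        rw [mul_sum]
        refine sum_le_sum fun s hs => ?_
        have hsS := Fintype.mem_piFinset.1 (mem_filter.1 hs).1
        calc ∏ j, p x (s j) ≤ ∏ j, (Real.exp r * gibbs S (tiltExp t lam cd) (s j)) :=
              prod_le_prod (fun j _ => hp0 x hxK _ (hsS j)) fun j _ => by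
                rw [← hxc]; exact hpd x hxK _ (hsS j)
          _ = _ := by
              rw [prod_mul_distrib, prod_const, card_univ, Fintype.card_fin, ← Real.exp_nat_mul,
                mul_comm r (T : ℝ)]
      have hdisj : (Y : Set (Space n)).PairwiseDisjoint A := by
        intro x hx z hz hne
        rw [Function.onFun, disjoint_left]
        intro s hs hs'
        have hxX := (mem_filter.1 (mem_coe.1 hx)).1
        have hzX := (mem_filter.1 (mem_coe.1 hz)).1
        obtain ⟨c, hc, hlt⟩ := hXsep x hxX z hzX hne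
        have h1 := abs_le.1 ((mem_filter.1 hs).2 c hc)
        have h2 := abs_le.1 ((mem_filter.1 hs').2 c hc)
        have h3 := abs_le.1 (htot x (hXK x hxX) c hc)
        have h4 := abs_le.1 (htot z (hXK z hzX) c hc)
        have : |g x c - g z c| ≤ 3 / 4 := abs_le.2 ⟨by linarith, by linarith⟩
        linarith
      have hsum : ∑ x ∈ Y, ∑ s ∈ A x, q s ≤ 1 := by
        rw [← sum_biUnion hdisj]
        refine le_trans (sum_le_sum_of_subset_of_nonneg (biUnion_subset.2 fun x _ =>
          filter_subset _ _) fun s _ _ => hq0 s) (le_of_eq ?_)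
        rw [sum_prod_piFinset S fun _ u => gibbs S (tiltExp t lam cd) u]
        simp [sum_gibbs hSne]
      have h5 : (Y.card : ℝ) * (1 / 2) ≤ Real.exp (r * T) := by
        calc (Y.card : ℝ) * (1 / 2) = ∑ x ∈ Y, (1 / 2 : ℝ) := by rw [sum_const, nsmul_eq_mul]
          _ ≤ ∑ x ∈ Y, Real.exp (r * T) * ∑ s ∈ A x, q s := sum_le_sum hmass
          _ ≤ _ := by rw [← mul_sum]; exact mul_le_of_le_one_right (Real.exp_pos _).le hsum
      linarith
    have hmaps : ∀ x ∈ X, code x ∈ Fintype.piFinset fun _ : Fin k => F := fun x hx =>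
      Fintype.mem_piFinset.2 (hcode x (hXK x hx))
    rw [card_eq_sum_card_fiberwise hmaps, Nat.cast_sum]
    refine (sum_le_sum fun cd _ => hfib cd).trans_eq ?_
    rw [sum_const, Fintype.card_piFinset]
    simp [hnmax, hf]
  -- a maximal separated set covers
  let good : Finset (Space n) → Prop := fun X => (∀ x ∈ X, x ∈ K) ∧
    ∀ x ∈ X, ∀ z ∈ X, x ≠ z → ∃ c ∈ F, 3 / 4 < |g x c - g z c|
  let P : ℕ → Prop := fun j => ∃ X, good X ∧ X.card = j
  have hgb : ∀ X, good X → X.card ≤ ⌊nmax⌋₊ := fun X hX => Nat.le_floor (hpack X hX.1 hX.2)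
  have hP1 : P 1 := ⟨{0}, ⟨fun x hx => by rw [mem_singleton.1 hx]; exact hK.zero_mem,
    fun x hx z hz hne => absurd ((mem_singleton.1 hx).trans (mem_singleton.1 hz).symm) hne⟩, rfl⟩
  have hN1 : 1 ≤ ⌊nmax⌋₊ := by
    obtain ⟨X, hX, hc⟩ := hP1
    exact hc ▸ hgb X hX
  obtain ⟨X, hX, hcard⟩ : P (Nat.findGreatest P ⌊nmax⌋₊) := Nat.findGreatest_spec hN1 hP1
  have hX1 : 1 ≤ X.card := hcard ▸ Nat.le_findGreatest hN1 hP1
  refine ⟨X, hX1, ?_, fun x hx => ?_⟩
  · set e := Real.log (f : ℝ) with he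
    have hlog2 : Real.log 2 ≤ e := Real.log_le_log two_pos hf2
    have hl2 := Real.log_two_gt_d9
    have he0 : 0 ≤ e := by linarith
    have h4e : Real.log (4 * f) ≤ 3 * e := by
      rw [Real.log_mul (by norm_num) (by linarith), show (4 : ℝ) = 2 ^ 2 by norm_num, Real.log_pow]
      push_cast
      linarith
    have hBρ : 48 ≤ B * ρ := by
      calc (48 : ℝ) = 1 * 48 := by norm_num
        _ ≤ B * ρ := mul_le_mul hB hρ (by norm_num) hB0.le
    have hTle : (T : ℝ) ≤ 1540 * B ^ 2 * e := by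
      have h1 := Nat.ceil_lt_add_one (show 0 ≤ 512 * B ^ 2 * Real.log (4 * f) by positivity)
      have h2 := mul_le_mul_of_nonneg_left h4e (show 0 ≤ 512 * B ^ 2 by positivity)
      have h3 : 1 * (1 / 2) ≤ B ^ 2 * e :=
        mul_le_mul (one_le_pow₀ hB) (by linarith) (by norm_num) (by positivity)
      rw [← hT] at h1
      linarith
    have hRle : R₀ ≤ 7 * (B * ρ) * e := by
      have hS' : (S.card : ℝ) ≤ f * (2 * M + 2) := by exact_mod_cast hScard
      have hM' := Nat.ceil_lt_add_one (show 0 ≤ B * ρ by positivity)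
      rw [← hM] at hM'
      have h1 := Real.log_le_log (by exact_mod_cast hSne.card_pos) hS'
      rw [Real.log_mul (by linarith) (by positivity), ← hR₀, ← he] at h1
      have h2 := Real.log_le_self (show (0 : ℝ) ≤ 2 * M + 2 by positivity)
      have h3 := mul_le_mul_of_nonneg_left (show (1 / 2 : ℝ) ≤ e by linarith)
        (show 0 ≤ 2 * (2 * (B * ρ) + 4) by positivity)
      have h4 := mul_le_mul_of_nonneg_right hBρ he0
      linarith
    have hrT : r * T ≤ θ ^ k * (7 * (B * ρ) * e) * (1540 * B ^ 2 * e) := by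
      rw [hr]
      gcongr
    have hXle : (X.card : ℝ) ≤ nmax := hpack X hX.1 hX.2
    calc Real.log (X.card : ℝ) ≤ Real.log nmax :=
          Real.log_le_log (by exact_mod_cast hX1) hXle
      _ = k * e + (Real.log 2 + r * T) := by
          rw [hnmax, Real.log_mul (by positivity) (by positivity),
            Real.log_mul two_ne_zero (Real.exp_pos _).ne', Real.log_exp, Real.log_pow]
      _ ≤ k * e + (e + θ ^ k * (7 * (B * ρ) * e) * (1540 * B ^ 2 * e)) := by linarith
      _ = _ := by ring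
  · have hx' : ∃ z ∈ X, ∀ c ∈ F, |g x c - g z c| ≤ 3 / 4 := by
      by_contra hne
      push Not at hne
      have hxX : x ∉ X := fun h => by
        obtain ⟨c, -, h'⟩ := hne x h
        rw [sub_self, abs_zero] at h'
        linarith
      have hnew : good (insert x X) := by
        refine ⟨fun z hz => ?_, fun a ha b hb hab => ?_⟩
        · rcases mem_insert.1 hz with rfl | hz
          · exact hx
          · exact hX.1 z hz
        · rcases mem_insert.1 ha with rfl | ha' <;> rcases mem_insert.1 hb with rfl | hb'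
          · exact absurd rfl hab
          · exact hne b hb'
          · obtain ⟨c, hc, h⟩ := hne a ha'
            exact ⟨c, hc, by rwa [abs_sub_comm]⟩
          · exact hX.2 a ha' b hb' hab
      have := Nat.le_findGreatest (P := P) (hgb _ hnew) ⟨_, hnew, rfl⟩
      rw [card_insert_of_notMem hxX, ← hcard] at this
      omega
    obtain ⟨z, hz, hzx⟩ := hx'
    refine ⟨z, hz, mem_of_polar hWc hWconv hW0 fun y hy => ?_⟩
    obtain ⟨c, hc, h⟩ := happ y hy
    rw [inner_sub_left]
    linarith [(abs_le.1 (hzx c hc)).2, (abs_le.1 (h x hx)).2, (abs_le.1 (h z (hX.1 z hz))).1]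

end Vale.Agent.P126
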