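import Mathlib

/-!
Empirical approximation of a convex combination, simultaneously for finitely many bounded
functions (P126).
-/

open Finset Real

namespace Vale.Agent.P126

variable {σ ι : Type*}

theorem exp_mul_le_cosh_add {l h : ℝ} (hh : |h| ≤ 1) :
    exp (l * h) ≤ cosh l + h * sinh l := by
  obtain ⟨h1, h2⟩ := abs_le.1 hh
  have := convexOn_exp.2 (Set.mem_univ l) (Set.mem_univ (-l))
    (show 0 ≤ (1 + h) / 2 by linarith) (show 0 ≤ (1 - h) / 2 by linarith) (by ring)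
  simp only [smul_eq_mul] at this
  rw [show (1 + h) / 2 * l + (1 - h) / 2 * (-l) = l * h by ring] at this
  rw [cosh_eq, sinh_eq]
  linarith

/-- Maurey's empirical method with an exponential moment bound: at least half of the
tuples, counted with the product weights, are good. -/
theorem half_le_mass_approx (S : Finset σ) (p : σ → ℝ) (hp0 : ∀ s ∈ S, 0 ≤ p s)
    (hp1 : ∑ s ∈ S, p s = 1) (F : Finset ι) (g : σ → ι → ℝ) {R η : ℝ} (hR : 0 < R) (hη : 0 < η)
    (hg : ∀ s ∈ S, ∀ i ∈ F, |g s i| ≤ R) (T : ℕ)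
    (hT : 4 * (F.card : ℝ) ≤ exp ((T : ℝ) * (η / (2 * R)) ^ 2 / 2))
    (A : Finset (Fin T → σ)) (hA : ∀ s : Fin T → σ, (∀ j, s j ∈ S) →
      (∀ i ∈ F, |(∑ j, g (s j) i) / T - ∑ u ∈ S, p u * g u i| ≤ η) → s ∈ A)
    (hAS : ∀ s ∈ A, ∀ j, s j ∈ S) :
    1 / 2 ≤ ∑ s ∈ A, ∏ j, p (s j) := by
  classical
  set μ : ι → ℝ := fun i => ∑ u ∈ S, p u * g u i with hμ
  set h : σ → ι → ℝ := fun s i => (g s i - μ i) / (2 * R) with hh
  set l : ℝ := η / (2 * R) with hl
  have hl0 : 0 < l := by positivity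
  have hμR : ∀ i ∈ F, |μ i| ≤ R := fun i hi => by
    refine (abs_sum_le_sum_abs _ _).trans ?_
    calc ∑ u ∈ S, |p u * g u i| ≤ ∑ u ∈ S, p u * R := sum_le_sum fun u hu => by
          rw [abs_mul, abs_of_nonneg (hp0 u hu)]
          exact mul_le_mul_of_nonneg_left (hg u hu i hi) (hp0 u hu)
      _ = R := by rw [← sum_mul, hp1, one_mul]
  have hh1 : ∀ s ∈ S, ∀ i ∈ F, |h s i| ≤ 1 := fun s hs i hi => by
    rw [hh, abs_div, abs_of_pos (show 0 < 2 * R by linarith), div_le_one (by linarith)]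
    exact (abs_sub _ _).trans (by linarith [hg s hs i hi, hμR i hi])
  have hmean : ∀ i, ∑ s ∈ S, p s * h s i = 0 := fun i => by
    simp only [hh, mul_div_assoc', ← sum_div, mul_sub, sum_sub_distrib, ← sum_mul, hp1, one_mul]
    simp [hμ]
  have hone : ∀ i ∈ F, ∀ b : ℝ, |b| = l → ∑ s ∈ S, p s * exp (b * h s i) ≤ exp (l ^ 2 / 2) := by
    intro i hi b hb
    calc ∑ s ∈ S, p s * exp (b * h s i) ≤ ∑ s ∈ S, p s * (cosh b + h s i * sinh b) :=
          sum_le_sum fun s hs => mul_le_mul_of_nonneg_left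
            (exp_mul_le_cosh_add (hh1 s hs i hi)) (hp0 s hs)
      _ = cosh b := by
          simp only [mul_add, sum_add_distrib, ← sum_mul, hp1, one_mul, ← mul_assoc, hmean]
          ring
      _ ≤ exp (l ^ 2 / 2) := by
          rw [← hb, sq_abs]
          exact cosh_le_exp_half_sq b
  set E : (Fin T → σ) → ℝ := fun s => ∑ i ∈ F,
    (exp (∑ j, l * h (s j) i) + exp (∑ j, -l * h (s j) i)) with hE
  set P : (Fin T → σ) → ℝ := fun s => ∏ j, p (s j) with hP
  set X : Finset (Fin T → σ) := Fintype.piFinset fun _ => S with hX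
  have htot : ∑ s ∈ X, P s = 1 := by
    rw [hP, hX, sum_prod_piFinset S fun _ u => p u]
    simp [hp1]
  have hup : ∑ s ∈ X, P s * E s ≤ 2 * F.card * exp (l ^ 2 / 2) ^ T := by
    have hterm : ∀ i ∈ F, ∀ b : ℝ, |b| = l →
        ∑ s ∈ X, P s * exp (∑ j, b * h (s j) i) ≤ exp (l ^ 2 / 2) ^ T := by
      intro i hi b hb
      simp only [hP, exp_sum, ← prod_mul_distrib, hX]
      rw [sum_prod_piFinset S fun _ u => p u * exp (b * h u i), prod_const, card_univ,
        Fintype.card_fin]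
      exact pow_le_pow_left₀ (sum_nonneg fun u hu => mul_nonneg (hp0 u hu) (exp_pos _).le)
        (hone i hi b hb) T
    simp only [hE, mul_sum, mul_add]
    rw [sum_comm]
    calc ∑ i ∈ F, ∑ s ∈ X, (P s * exp (∑ j, l * h (s j) i) + P s * exp (∑ j, -l * h (s j) i))
        ≤ ∑ _i ∈ F, 2 * exp (l ^ 2 / 2) ^ T := sum_le_sum fun i hi => by
          rw [sum_add_distrib, two_mul]
          exact add_le_add (hterm i hi l (abs_of_pos hl0))
            (hterm i hi (-l) (by rw [abs_neg, abs_of_pos hl0]))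
      _ = _ := by rw [sum_const, nsmul_eq_mul]; ring
  have hlow : ∀ s ∈ X \ A, exp ((T : ℝ) * l ^ 2) ≤ E s := by
    intro s hs
    obtain ⟨hsX, hsA⟩ := mem_sdiff.1 hs
    have hne : ∃ i ∈ F, η < |(∑ j, g (s j) i) / T - μ i| := by
      by_contra hne
      push Not at hne
      exact hsA (hA s (fun j => Fintype.mem_piFinset.1 hsX j) hne)
    obtain ⟨i, hi, hi'⟩ := hne
    have hsum : η * T / (2 * R) ≤ |∑ j, h (s j) i| := by
      simp only [hh, ← sum_div, sum_sub_distrib, sum_const, card_univ, Fintype.card_fin,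
        nsmul_eq_mul, abs_div, abs_of_pos (show 0 < 2 * R by linarith)]
      refine div_le_div_of_nonneg_right ?_ (by linarith)
      rcases Nat.eq_zero_or_pos T with rfl | hT0
      · simp
      have hT' : (0 : ℝ) < T := Nat.cast_pos.2 hT0
      rw [div_sub' hT'.ne', abs_div, abs_of_pos hT', lt_div_iff₀ hT'] at hi'
      exact hi'.le
    have hkey : (T : ℝ) * l ^ 2 ≤ max (∑ j, l * h (s j) i) (∑ j, -l * h (s j) i) := by
      rw [← mul_sum, ← mul_sum, neg_mul, max_comm]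
      have : l * |∑ j, h (s j) i| ≤ max (-(l * ∑ j, h (s j) i)) (l * ∑ j, h (s j) i) := by
        rw [← abs_of_pos hl0, ← abs_mul, abs_of_pos hl0, max_comm]
        exact le_of_eq abs_eq_max_neg
      refine le_trans ?_ this
      calc (T : ℝ) * l ^ 2 = l * (η * T / (2 * R)) := by rw [hl]; ring
        _ ≤ _ := mul_le_mul_of_nonneg_left hsum hl0.le
    have hi2 : exp (∑ j, l * h (s j) i) + exp (∑ j, -l * h (s j) i) ≤ E s :=
      single_le_sum (f := fun i => exp (∑ j, l * h (s j) i) + exp (∑ j, -l * h (s j) i))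
        (fun i _ => by positivity) hi
    refine le_trans ?_ hi2
    rcases le_max_iff.1 hkey with hc | hc <;>
      have := exp_le_exp.2 hc <;>
      linarith [exp_pos (∑ j, l * h (s j) i), exp_pos (∑ j, -l * h (s j) i)]
  have hPnn : ∀ s ∈ X, 0 ≤ P s := fun s hs =>
    prod_nonneg fun j _ => hp0 _ (Fintype.mem_piFinset.1 hs j)
  have hbad : exp ((T : ℝ) * l ^ 2) * ∑ s ∈ X \ A, P s ≤ 2 * F.card * exp (l ^ 2 / 2) ^ T := by
    refine le_trans ?_ hup
    rw [mul_sum]
    calc ∑ s ∈ X \ A, exp ((T : ℝ) * l ^ 2) * P s ≤ ∑ s ∈ X \ A, P s * E s :=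
          sum_le_sum fun s hs => by
            rw [mul_comm]
            exact mul_le_mul_of_nonneg_left (hlow s hs) (hPnn s (mem_sdiff.1 hs).1)
      _ ≤ ∑ s ∈ X, P s * E s := sum_le_sum_of_subset_of_nonneg sdiff_subset fun s hs _ =>
          mul_nonneg (hPnn s hs) (sum_nonneg fun i _ => by positivity)
  have hsplit : ∑ s ∈ X, P s = (∑ s ∈ X \ A, P s) + ∑ s ∈ A, P s :=
    (sum_sdiff fun s hs => Fintype.mem_piFinset.2 (hAS s hs)).symm
  rw [← exp_nat_mul] at hbad
  have h2 : exp ((T : ℝ) * l ^ 2) = exp ((T : ℝ) * l ^ 2 / 2) * exp ((T : ℝ) * l ^ 2 / 2) := by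
    rw [← exp_add]; ring_nf
  rw [h2, show (T : ℝ) * (l ^ 2 / 2) = (T : ℝ) * l ^ 2 / 2 by ring, mul_comm (2 * (F.card : ℝ)),
    mul_assoc] at hbad
  have h3 := le_of_mul_le_mul_left hbad (exp_pos _)
  have h4 : exp ((T : ℝ) * l ^ 2 / 2) * ∑ s ∈ X \ A, P s ≤
      exp ((T : ℝ) * l ^ 2 / 2) * (1 / 2) := by linarith
  have h5 := le_of_mul_le_mul_left h4 (exp_pos _)
  linarith

end Vale.Agent.P126
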