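import Vale.Agent.P126.Main

/-!
The trade-off between scale and factor in the duality of metric entropy (P126).
-/

open scoped InnerProductSpace Pointwise
open Finset

namespace Vale.Agent.P126

variable {n : ℕ} {K L : Set (Space n)}

theorem coveringNum_mono {A B B' : Set (Space n)} (hA : IsCompact A) (hB : IsSymmBody B)
    (h : B ⊆ B') : coveringNum A B' ≤ coveringNum A B := by
  obtain ⟨C, hC, hcov⟩ := exists_cover hA hB
  refine le_trans (coveringNum_le (hcov.trans ?_)) hC
  exact Set.iUnion₂_mono fun c _ => Set.vadd_set_mono h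

theorem log_coveringNum_polar_mono (hK : IsSymmBody K) (hL : IsSymmBody L) {a a' : ℝ}
    (ha : 0 < a) (haa : a ≤ a') :
    Real.log (coveringNum (polarBody L) (a⁻¹ • polarBody K)) ≤
      Real.log (coveringNum (polarBody L) (a'⁻¹ • polarBody K)) := by
  have ha' : 0 < a' := lt_of_lt_of_le ha haa
  have hle : coveringNum (polarBody L) (a⁻¹ • polarBody K) ≤
      coveringNum (polarBody L) (a'⁻¹ • polarBody K) := by
    refine coveringNum_mono hL.polar.1 (hK.polar.smul (inv_ne_zero ha'.ne')) ?_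
    rintro _ ⟨y, hy, rfl⟩
    refine ⟨(a / a') • y, (convex_polarBody K).smul_mem_of_zero_mem (zero_mem_polarBody K) hy
      ⟨by positivity, (div_le_one ha').2 haa⟩, ?_⟩
    simp only [smul_smul]
    congr 1
    field_simp
  rcases Nat.eq_zero_or_pos (coveringNum (polarBody L) (a⁻¹ • polarBody K)) with h0 | h0
  · rw [h0, Nat.cast_zero, Real.log_zero]
    exact Real.log_natCast_nonneg _
  · exact Real.log_le_log (by exact_mod_cast h0) (by exact_mod_cast hle)

theorem shift_pow_le (k : ℕ) : (k + 4) ^ 4 ≤ 625 * 4 ^ k := by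
  induction k with
  | zero => norm_num
  | succ k ih =>
    have h : 4 * (k + 1 + 4) ≤ 5 * (k + 4) := by omega
    have h2 := Nat.pow_le_pow_left h 4
    rw [mul_pow, mul_pow] at h2
    norm_num at h2
    rw [pow_succ 4 k]
    have h3 : 0 ≤ 4 ^ k := Nat.zero_le _
    linarith

/-- The constant. -/
noncomputable def dualConst : ℝ := 5120 + 43120 * 64 ^ 3 * 16 ^ 4 * 625

/-- The trade-off. -/
theorem log_coveringNum_le_tradeoff (hK : IsSymmBody K) (hL : IsSymmBody L) {k : ℕ} (hk : 1 ≤ k)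
    {Q : ℝ} (hQ : 1 ≤ Q) :
    Real.log (coveringNum K L) ≤ dualConst *
      (k * Real.log (coveringNum (polarBody L) ((dualConst * k * Q)⁻¹ • polarBody K)) +
        Real.log (coveringNum (polarBody L) ((dualConst * k * Q)⁻¹ • polarBody K)) ^ 2 / Q ^ k) := by
  have hk1 : (1 : ℝ) ≤ k := by exact_mod_cast hk
  have hC : (5120 : ℝ) ≤ dualConst := by norm_num [dualConst]
  have hC' : (43120 * 64 ^ 3 * 16 ^ 4 * 625 : ℝ) ≤ dualConst := by norm_num [dualConst]
  set ρ : ℝ := 16 * ((k + 4 : ℕ) : ℝ) * (4 * Q) with hρ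
  have hρ0 : 48 ≤ ρ := by
    calc (48 : ℝ) ≤ 16 * 3 * 1 := by norm_num
      _ ≤ ρ := by
        rw [hρ]; push_cast
        exact mul_le_mul (by linarith) (by linarith) (by norm_num) (by linarith)
  have h := log_coveringNum_le hK hL hρ0 (show 1 ≤ k + 4 by omega)
  set E := Real.log (coveringNum (polarBody L) ((dualConst * k * Q)⁻¹ • polarBody K)) with hE
  set E' := Real.log (coveringNum (polarBody L) ((16 * ρ)⁻¹ • polarBody K)) with hE'
  have hE'0 : 0 ≤ E' := Real.log_natCast_nonneg _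
  have hEE : E' ≤ E := by
    refine log_coveringNum_polar_mono hK hL (by positivity) ?_
    have hkQ : 1 ≤ (k : ℝ) := hk1
    calc 16 * ρ = 1024 * ((k + 4 : ℕ) : ℝ) * Q := by rw [hρ]; ring
      _ ≤ 1024 * (5 * k) * Q := by
          refine mul_le_mul_of_nonneg_right ?_ (by linarith)
          push_cast
          linarith
      _ = 5120 * k * Q := by ring
      _ ≤ dualConst * k * Q := by
          gcongr
  have hθ : 16 * ((k + 4 : ℕ) : ℝ) / ρ = 1 / (4 * Q) := by
    rw [hρ]
    field_simp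
  have hcoef : 43120 * (64 * ρ) ^ 3 * ρ * (1 / (4 * Q)) ^ (k + 4) ≤ dualConst / Q ^ k := by
    have e : 43120 * (64 * ρ) ^ 3 * ρ * (1 / (4 * Q)) ^ (k + 4) =
        43120 * 64 ^ 3 * 16 ^ 4 * (((k + 4 : ℕ) : ℝ) ^ 4 / 4 ^ k) / Q ^ k := by
      rw [hρ, pow_add, one_div, inv_pow, inv_pow, mul_pow 4 Q k]
      field_simp
    rw [e]
    refine div_le_div_of_nonneg_right (le_trans ?_ hC') (by positivity)
    refine mul_le_mul_of_nonneg_left ?_ (by norm_num)
    rw [div_le_iff₀ (by positivity)]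
    exact_mod_cast shift_pow_le k
  rw [hθ] at h
  calc Real.log (coveringNum K L : ℝ)
      ≤ 2 * (((k + 4 : ℕ) : ℝ) + 1) * E' +
        43120 * (64 * ρ) ^ 3 * ρ * (1 / (4 * Q)) ^ (k + 4) * E' ^ 2 := h
    _ ≤ (dualConst * k) * E + dualConst / Q ^ k * E ^ 2 := by
        refine add_le_add (mul_le_mul ?_ hEE hE'0 (by positivity)) (mul_le_mul hcoef
          (pow_le_pow_left₀ hE'0 hEE 2) (sq_nonneg _) (by positivity))
        push_cast
        calc 2 * ((k : ℝ) + 4 + 1) ≤ 12 * k := by linarith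
          _ ≤ dualConst * k := mul_le_mul_of_nonneg_right (by linarith) (by linarith)
    _ = _ := by ring

end Vale.Agent.P126
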